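import Vale.Agent.P155.C276.Chain
import Vale.Agent.P155.G45.Basic
import Vale.Agent.P155.A.TempGeo

/-!
# P155, block C: exponential moments of the height at one face (`C_height`)
-/

namespace Vale.Agent.P155.C276

open Finset Vale.Agent.P155.F Vale.Agent.P155.Skel Vale.Agent.P155.E1

theorem fw_zero {F : ℕ → Finset Pt} {n : ℕ} {w : Pt} (h : ∀ l < n, w ∉ F l) : fw F n w = 0 := by
  classical
  unfold fw
  apply sum_eq_zero
  intro l hl
  rw [if_neg (h l (mem_range.1 hl))]

theorem rs_add_one (l : ℕ) : rs l + 1 = 2 ^ l := by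
  unfold rs
  have : 1 ≤ 2 ^ l := Nat.one_le_two_pow
  omega

theorem card_box_le (x : Pt) {r l : ℕ} (h : r ≤ 130 * 2 ^ l) :
    ((box x r).card : ℝ) ≤ 100000 * 4 ^ l := by
  rw [card_box']
  have h1 : (2 * r + 1) ^ 2 ≤ (261 * 2 ^ l) ^ 2 := by
    apply Nat.pow_le_pow_left
    have : 1 ≤ 2 ^ l := Nat.one_le_two_pow
    omega
  have h2 : (((2 * r + 1) ^ 2 : ℕ) : ℝ) ≤ (((261 * 2 ^ l) ^ 2 : ℕ) : ℝ) := by exact_mod_cast h1
  have h4 : (4 : ℝ) ^ l = (2 ^ l) ^ 2 := by
    rw [← pow_mul, mul_comm l 2, pow_mul]; norm_num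
  refine h2.trans ?_
  rw [h4]
  push_cast
  nlinarith [sq_nonneg ((2 : ℝ) ^ l)]

section
variable {x y : Pt} {d K : ℕ}

theorem Dl_pos {l : ℕ} (h : l ≠ 0) : Dl l = 64 * 2 ^ l := by
  unfold Dl; rw [if_neg h]

theorem card_F1 (hd : d ≤ 128 * 2 ^ K) {l : ℕ} (hl : l ≤ K) :
    ((F1 x d K l 1).card : ℝ) ≤ 100000 * 4 ^ l := by
  unfold F1
  have h1 := rs_add_one l
  have h2 := rs_add_one (l + 1)
  have h3 : 2 ^ (l + 1) = 2 * 2 ^ l := by ring
  split_ifs with h
  · apply card_box_le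
    omega
  · have : l = K := by omega
    subst this
    apply card_box_le
    omega

theorem card_F2 (l : ℕ) : ((F2 x y d l 1).card : ℝ) ≤ 100000 * 4 ^ l := by
  unfold F2
  have h2 := rs_add_one (l + 1)
  have h3 : 2 ^ (l + 1) = 2 * 2 ^ l := by ring
  have h4 := Dl_pos (Nat.succ_ne_zero l)
  have h5 : ((box y (Dl (l + 1) + rs (l + 1) + 1)).card : ℝ) ≤ 100000 * 4 ^ l := by
    apply card_box_le
    have h6 : Dl (l + 1) = 64 * 2 ^ (l + 1) := h4
    omega
  refine le_trans ?_ h5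
  exact_mod_cast card_le_card inter_subset_left

theorem F1_dist {O : Set Pt} (hdO : dF O x = d) (hK : ∀ l ≤ K, Dl l ≤ d) {l : ℕ} (hl : l ≤ K)
    {w : Pt} (hw : w ∈ F1 x d K l 1) : 2 ^ l ≤ 1 + dF O w ∧ dn x w ≤ d + 2 := by
  have h0 := dF_le_add O x w
  rw [hdO] at h0
  have h1 := rs_add_one l
  have h2 := rs_add_one (l + 1)
  have h3 : 2 ^ (l + 1) = 2 * 2 ^ l := by ring
  have h3' : 1 ≤ 2 ^ l := Nat.one_le_two_pow
  unfold F1 at hw
  split_ifs at hw with h
  · rw [mem_box_dn] at hw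
    have h4 : Dl (l + 1) = 64 * 2 ^ (l + 1) := Dl_pos (Nat.succ_ne_zero l)
    have h5 := hK (l + 1) (by omega)
    constructor <;> omega
  · have hlK : l = K := by omega
    subst hlK
    rw [mem_box_dn] at hw
    by_cases hl0 : l = 0
    · subst hl0
      rw [pow_zero] at *
      constructor <;> omega
    · have h4 := Dl_pos hl0
      have h5 := hK l le_rfl
      constructor <;> omega

theorem F2_dist {O : Set Pt} (hdO : dF O x = d) (hK : ∀ l ≤ K, Dl l ≤ d) {l : ℕ} (hl : l < K)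
    {w : Pt} (hw : w ∈ F2 x y d l 1) : 2 ^ l ≤ 1 + dF O w ∧ dn x w ≤ d + 2 := by
  have h0 := dF_le_add O x w
  rw [hdO] at h0
  have h2 := rs_add_one (l + 1)
  have h3 : 2 ^ (l + 1) = 2 * 2 ^ l := by ring
  have h3' : 1 ≤ 2 ^ l := Nat.one_le_two_pow
  unfold F2 at hw
  have hw2 := (mem_inter.1 hw).2
  rw [mem_box_dn] at hw2
  by_cases hl0 : l = 0
  · subst hl0
    rw [pow_zero] at *
    constructor <;> omega
  · have h4 := Dl_pos hl0
    have h5 := hK l hl.le
    constructor <;> omega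

/-- the support of the weights and the sums over it -/
theorem weights {O : Set Pt} (hdO : dF O x = d) (hK : ∀ l ≤ K, Dl l ≤ d)
    (hd : d ≤ 128 * 2 ^ K) : ∃ S : Finset Pt, (∀ w ∈ S, White w ∧ dn x w ≤ d + 2) ∧
    (∀ w, White w → w ∉ S → aw x y d K 1 w = 0) ∧
    ∑ w ∈ S, aw x y d K 1 w ^ 2 ≤ 800000 * (2 * (K : ℝ) + 1) ∧
    ∑ w ∈ S, (1 : ℝ) / (1 + (dF O w : ℝ)) ^ 2 ≤ 100000 * (2 * (K : ℝ) + 1) := by
  classical
  set U1 : Finset Pt := (range (K + 1)).biUnion (fun l => F1 x d K l 1) with hU1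
  set U2 : Finset Pt := (range K).biUnion (fun l => F2 x y d l 1) with hU2
  refine ⟨(U1 ∪ U2).filter White, ?_, ?_, ?_, ?_⟩
  · intro w hw
    obtain ⟨h1, h2⟩ := mem_filter.1 hw
    refine ⟨h2, ?_⟩
    rcases mem_union.1 h1 with h | h
    · obtain ⟨l, hl, hm⟩ := mem_biUnion.1 h
      exact (F1_dist hdO hK (by have := mem_range.1 hl; omega) hm).2
    · obtain ⟨l, hl, hm⟩ := mem_biUnion.1 h
      exact (F2_dist hdO hK (mem_range.1 hl) hm).2
  · intro w hw hwS
    have h1 : w ∉ U1 ∪ U2 := fun h => hwS (mem_filter.2 ⟨h, hw⟩)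
    rw [mem_union, not_or] at h1
    unfold aw
    rw [fw_zero, fw_zero, add_zero]
    · intro l hl hm
      exact h1.2 (mem_biUnion.2 ⟨l, mem_range.2 hl, hm⟩)
    · intro l hl hm
      exact h1.1 (mem_biUnion.2 ⟨l, mem_range.2 hl, hm⟩)
  · set S := (U1 ∪ U2).filter White
    have h1 := fw_sq_le (fun l => F1 x d K l 1) (K + 1) S (C1 := 100000)
      (fun l hl => card_F1 hd (by omega))
    have h2 := fw_sq_le (fun l => F2 x y d l 1) K S (C1 := 100000) (fun l _ => card_F2 l)
    calc ∑ w ∈ S, aw x y d K 1 w ^ 2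
        ≤ ∑ w ∈ S, (2 * fw (fun l => F1 x d K l 1) (K + 1) w ^ 2 +
            2 * fw (fun l => F2 x y d l 1) K w ^ 2) := by
          apply sum_le_sum
          intro w _
          unfold aw
          nlinarith [sq_nonneg (fw (fun l => F1 x d K l 1) (K + 1) w -
            fw (fun l => F2 x y d l 1) K w)]
      _ = 2 * ∑ w ∈ S, fw (fun l => F1 x d K l 1) (K + 1) w ^ 2 +
            2 * ∑ w ∈ S, fw (fun l => F2 x y d l 1) K w ^ 2 := by
          rw [sum_add_distrib, mul_sum, mul_sum]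
      _ ≤ 2 * (4 * 100000 * ((K + 1 : ℕ) : ℝ)) + 2 * (4 * 100000 * (K : ℝ)) := by linarith
      _ = 800000 * (2 * K + 1) := by push_cast; ring
  · have h1 := sum_dF_le O (fun l => F1 x d K l 1) (K + 1) (C1 := 100000)
      (fun l hl => card_F1 hd (by omega))
      (fun l hl w hw => by
        have := (F1_dist hdO hK (by omega) hw).1
        exact_mod_cast this)
    have h2 := sum_dF_le O (fun l => F2 x y d l 1) K (C1 := 100000) (fun l _ => card_F2 l)
      (fun l hl w hw => by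
        have := (F2_dist hdO hK hl hw).1
        exact_mod_cast this)
    have hbi : ∀ (n : ℕ) (F : ℕ → Finset Pt), ∑ w ∈ (range n).biUnion F, 1 / (1 + (dF O w : ℝ)) ^ 2 ≤
        ∑ l ∈ range n, ∑ w ∈ F l, 1 / (1 + (dF O w : ℝ)) ^ 2 := by
      intro n F
      induction n with
      | zero => simp
      | succ n ih =>
        rw [range_add_one, biUnion_insert, sum_insert (by simp)]
        have h3 : ∑ w ∈ F n ∪ (range n).biUnion F, 1 / (1 + (dF O w : ℝ)) ^ 2 ≤
            ∑ w ∈ F n, 1 / (1 + (dF O w : ℝ)) ^ 2 +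
              ∑ w ∈ (range n).biUnion F, 1 / (1 + (dF O w : ℝ)) ^ 2 := by
          rw [← sum_union_inter]
          have : 0 ≤ ∑ w ∈ F n ∩ (range n).biUnion F, 1 / (1 + (dF O w : ℝ)) ^ 2 :=
            sum_nonneg (fun _ _ => by positivity)
          linarith
        linarith
    have h3 := hbi (K + 1) (fun l => F1 x d K l 1)
    have h4 := hbi K (fun l => F2 x y d l 1)
    calc ∑ w ∈ (U1 ∪ U2).filter White, 1 / (1 + (dF O w : ℝ)) ^ 2
        ≤ ∑ w ∈ U1 ∪ U2, 1 / (1 + (dF O w : ℝ)) ^ 2 :=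
          sum_le_sum_of_subset_of_nonneg (filter_subset _ _) (fun _ _ _ => by positivity)
      _ ≤ ∑ w ∈ U1, 1 / (1 + (dF O w : ℝ)) ^ 2 + ∑ w ∈ U2, 1 / (1 + (dF O w : ℝ)) ^ 2 := by
          rw [← sum_union_inter]
          have : 0 ≤ ∑ w ∈ U1 ∩ U2, 1 / (1 + (dF O w : ℝ)) ^ 2 :=
            sum_nonneg (fun _ _ => by positivity)
          linarith
      _ ≤ 100000 * ((K + 1 : ℕ) : ℝ) + 100000 * (K : ℝ) :=
          add_le_add (h3.trans h1) (h4.trans h2)
      _ = 100000 * (2 * K + 1) := by push_cast; ring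

end

/-- the scale `K` -/
theorem exists_K (d : ℕ) : ∃ K : ℕ, (∀ l ≤ K, Dl l ≤ d) ∧ d ≤ 128 * 2 ^ K ∧
    2 ^ K ≤ d + 1 := by
  refine ⟨Nat.log 2 (d / 64), ?_, ?_, ?_⟩
  · intro l hl
    by_cases h0 : l = 0
    · subst h0; unfold Dl; simp
    · rw [Dl_pos h0]
      have h1 : d / 64 ≠ 0 := by
        intro h
        rw [h] at hl
        simp at hl
        exact h0 hl
      have h2 := Nat.pow_log_le_self 2 h1
      have h3 : 2 ^ l ≤ 2 ^ Nat.log 2 (d / 64) := Nat.pow_le_pow_right (by norm_num) hl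
      omega
  · have h2 := Nat.lt_pow_succ_log_self (b := 2) (by norm_num) (d / 64)
    have h3 : 2 ^ (Nat.log 2 (d / 64)).succ = 2 * 2 ^ (Nat.log 2 (d / 64)) := by
      rw [Nat.succ_eq_add_one, pow_succ]; ring
    omega
  · by_cases h1 : d / 64 = 0
    · rw [h1]; simp
    · have h2 := Nat.pow_log_le_self 2 h1
      omega

/-- product functions under the uniform measure on pairs -/
theorem Ex_mul_indep (V : Finset Pt) (f g : (Pt → Pt) → ℝ) :
    Ex V (fun ω => f ω.1 * g ω.2) = Ex1 V f * Ex1 V g := by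
  unfold Ex Ex1 DD Z
  rw [card_product, sum_product, smul_eq_mul]
  have h1 : ∑ a ∈ PM V, ∑ b ∈ PM V, f (a, b).1 * g (a, b).2 =
      (∑ a ∈ PM V, f a) * ∑ b ∈ PM V, g b := by
    rw [sum_mul_sum]
  rw [h1]
  push_cast
  rw [mul_inv]
  ring

theorem Ex_mono' (V : Finset Pt) {f g : Conf → ℝ} (h : ∀ ω ∈ DD V, f ω ≤ g ω) :
    Ex V f ≤ Ex V g := by
  unfold Ex
  rw [smul_eq_mul, smul_eq_mul]
  exact mul_le_mul_of_nonneg_left (sum_le_sum h) (by positivity)

theorem cosh_sub_le (a b : ℝ) : Real.cosh (a - b) ≤ 2 * (Real.cosh a * Real.cosh b) := by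
  rw [Real.cosh_eq, Real.cosh_eq, Real.cosh_eq]
  have h1 : Real.exp (a - b) = Real.exp a * Real.exp (-b) := by rw [← Real.exp_add]; ring_nf
  have h2 : Real.exp (-(a - b)) = Real.exp (-a) * Real.exp b := by rw [← Real.exp_add]; ring_nf
  rw [h1, h2]
  have p1 := Real.exp_pos a
  have p2 := Real.exp_pos (-a)
  have p3 := Real.exp_pos b
  have p4 := Real.exp_pos (-b)
  nlinarith [mul_pos p1 p3, mul_pos p2 p4, mul_pos p1 p4, mul_pos p2 p3]

/-- the exponential moment of one copy -/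
theorem one_copy {C : ℝ} (hC0 : 0 ≤ C) (hC : ∀ (T : Temp) (w b : Pt), White w → Black b →
    Kinv T.V b w ^ 2 ≤ C / (1 + (dF T.faceSet w : ℝ)) ^ 2 + C / (1 + (dn b w : ℝ)) ^ 2)
    (R : ℕ) (T : Temp) {x y : Pt} {d K : ℕ} (hdO : dF T.faceSet x = d) (hxy : dn x y ≤ d)
    (hdR : d ≤ 2 * R + 1) (hK : ∀ l ≤ K, Dl l ≤ d) (hd : d ≤ 128 * 2 ^ K) (hK2 : 2 ^ K ≤ d + 1) :
    Ex1 T.V (fun m => Real.cosh ((1 / 10) / Real.log (R + 2) *
        LS T.V (ps (tV x y d K) (tH x y d K)) m - (1 / 10) / Real.log (R + 2) *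
        Ex1 T.V (LS T.V (ps (tV x y d K) (tH x y d K))))) ≤
      Real.exp (80000 * (2 + 32 * C * 1000064)) := by
  classical
  set LR : ℝ := Real.log (R + 2) with hLR
  have hR0 : (0 : ℝ) ≤ R := Nat.cast_nonneg R
  have hl2 := Real.log_two_gt_d9
  have hLR1 : Real.log 2 ≤ LR := Real.log_le_log (by norm_num) (by linarith)
  have hLR2 : 1 ≤ 2 * LR := by linarith
  have hLR0 : 0 < LR := by linarith
  set N : ℝ := 2 * (K : ℝ) + 1 with hN
  have hN0 : 0 ≤ N := by positivity
  have hNle : N ≤ 10 * LR := by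
    have h1 : (K : ℝ) * Real.log 2 ≤ 2 * LR := by
      have h2 : (K : ℝ) * Real.log 2 = Real.log ((2 : ℝ) ^ K) := by rw [Real.log_pow]
      have h3 : 2 * LR = Real.log (((R : ℝ) + 2) ^ 2) := by rw [Real.log_pow]; push_cast; rfl
      rw [h2, h3]
      apply Real.log_le_log (by positivity)
      have h4 : 2 ^ K ≤ 2 * R + 2 := by omega
      have h5 : (2 : ℝ) ^ K ≤ 2 * R + 2 := by exact_mod_cast h4
      nlinarith
    have h6 : (K : ℝ) * (1 / 2) ≤ (K : ℝ) * Real.log 2 :=
      mul_le_mul_of_nonneg_left (by linarith) (Nat.cast_nonneg K)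
    linarith
  set lam : ℝ := (1 / 10) / LR with hlam
  have hlam0 : 0 < lam := by positivity
  have hlamLR : lam * LR = 1 / 10 := by rw [hlam]; field_simp
  have hlam4 : lam * 4 ≤ 1 := by nlinarith
  obtain ⟨S, hS1, hS2, hS3, hS4⟩ := weights (x := x) (y := y) (O := T.faceSet) hdO hK hd
  set φ : Pt → Pt → ℝ := fun w b =>
    if White w then lam * ps (tV x y d K) (tH x y d K) w b else 0 with hφ
  have hps := abs_ps_chain hxy hK
  have key := cosh_moment (Temp.sub_self T) φ S (fun w => lam * aw x y d K 1 w)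
    (by
      intro w b hw
      simp only [hφ]
      split_ifs with h
      · have h1 := hps w b
        rw [hS2 w h hw] at h1
        rw [abs_nonpos_iff.1 h1, mul_zero]
      · rfl)
    (by
      intro w b
      simp only [hφ]
      split_ifs with h
      · rw [abs_mul, abs_of_pos hlam0]
        exact mul_le_mul_of_nonneg_left (hps w b) hlam0.le
      · rw [abs_zero]; exact mul_nonneg hlam0.le (aw_nonneg _ _ _ _ _ _))
    (by
      intro w
      have h1 := mul_le_mul_of_nonneg_left (aw_le_four x y d K 1 w) hlam0.le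
      linarith)
  have hLS : ∀ m, LS T.V φ m = lam * LS T.V (ps (tV x y d K) (tH x y d K)) m := by
    intro m
    unfold LS
    rw [mul_sum]
    apply sum_congr rfl
    intro w hw
    simp only [hφ, (mem_filter.1 hw).2, if_true]
  have hE : Ex1 T.V (LS T.V φ) = lam * Ex1 T.V (LS T.V (ps (tV x y d K) (tH x y d K))) := by
    rw [← Ex1_mul]
    congr 1
    funext m
    exact hLS m
  simp only [hLS, hE] at key
  refine key.trans (Real.exp_le_exp.2 ?_)
  -- kernel sums
  have hker : ∀ w ∈ S, ∀ b ∈ nbrs w, ∑ w' ∈ S, Kinv T.V b w' ^ 2 ≤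
      C * (100000 * N + 64 * LR) := by
    intro w hw b hb
    have hbB : Black b := adj_white (mem_nbrs.1 hb) (hS1 w hw).1
    have hsub : S ⊆ box b (2 * d + 5) := by
      intro w' hw'
      rw [mem_box_dn]
      have h1 := (hS1 w hw).2
      have h2 := (hS1 w' hw').2
      have h3 := dn_tri b w w'
      have h4 := dn_tri w x w'
      rw [dn_symm w x] at h4
      have h5 : dn b w ≤ 1 := by
        rw [dn_symm, dn_le_iff3]
        have hadj := mem_nbrs.1 hb
        unfold Adj at hadj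
        have h6 := abs_nonneg (w.1 - b.1)
        have h7 := abs_nonneg (w.2 - b.2)
        constructor <;> push_cast <;> linarith
      omega
    have hlog : 16 * Real.log (((2 * d + 5 : ℕ) : ℝ) + 2) ≤ 64 * LR := by
      have h1 : 4 * LR = Real.log (((R : ℝ) + 2) ^ 4) := by rw [Real.log_pow]; push_cast; rfl
      have h2 : Real.log (((2 * d + 5 : ℕ) : ℝ) + 2) ≤ 4 * LR := by
        rw [h1]
        apply Real.log_le_log (by positivity)
        have h3 : 2 * d + 5 + 2 ≤ 4 * R + 9 := by omega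
        have h4 : ((2 * d + 5 : ℕ) : ℝ) + 2 ≤ 4 * (R : ℝ) + 9 := by exact_mod_cast h3
        have h5 : 4 * (R : ℝ) + 9 ≤ ((R : ℝ) + 2) ^ 4 := by
          have h6 : ((R : ℝ) + 2) ^ 4 = (R : ℝ) ^ 4 + 8 * R ^ 3 + 24 * R ^ 2 + 32 * R + 16 := by
            ring
          rw [h6]
          have h7 : 0 ≤ (R : ℝ) ^ 4 := by positivity
          have h8 : 0 ≤ (R : ℝ) ^ 3 := by positivity
          have h9 : 0 ≤ (R : ℝ) ^ 2 := by positivity
          linarith
        linarith
      linarith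
    calc ∑ w' ∈ S, Kinv T.V b w' ^ 2
        ≤ ∑ w' ∈ S, (C / (1 + (dF T.faceSet w' : ℝ)) ^ 2 + C / (1 + (dn b w' : ℝ)) ^ 2) :=
          sum_le_sum (fun w' hw' => hC T w' b (hS1 w' hw').1 hbB)
      _ = C * ∑ w' ∈ S, 1 / (1 + (dF T.faceSet w' : ℝ)) ^ 2 +
          C * ∑ w' ∈ S, 1 / (1 + (dn b w' : ℝ)) ^ 2 := by
          rw [sum_add_distrib, mul_sum, mul_sum]
          simp only [mul_one_div]
      _ ≤ C * (100000 * N) + C * (64 * LR) := by
          apply add_le_add
          · exact mul_le_mul_of_nonneg_left hS4 hC0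
          · apply mul_le_mul_of_nonneg_left _ hC0
            refine le_trans ?_ hlog
            refine le_trans ?_ (sum_box_le b (2 * d + 5))
            exact sum_le_sum_of_subset_of_nonneg hsub (fun _ _ _ => by positivity)
      _ = C * (100000 * N + 64 * LR) := by ring
  set Q : ℝ := C * (100000 * N + 64 * LR) with hQ
  have hQ0 : 0 ≤ Q := by positivity
  have hQle : Q ≤ C * (1000064 * LR) := mul_le_mul_of_nonneg_left (by linarith) hC0
  calc ∑ w ∈ S, (lam * aw x y d K 1 w) ^ 2 *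
        (1 + 8 * ∑ b ∈ nbrs w, ∑ w' ∈ S, Kinv T.V b w' ^ 2)
      ≤ ∑ w ∈ S, (lam * aw x y d K 1 w) ^ 2 * (1 + 32 * Q) := by
        apply sum_le_sum
        intro w hw
        apply mul_le_mul_of_nonneg_left _ (sq_nonneg _)
        have h1 : ∑ b ∈ nbrs w, ∑ w' ∈ S, Kinv T.V b w' ^ 2 ≤ 4 * Q := by
          calc ∑ b ∈ nbrs w, ∑ w' ∈ S, Kinv T.V b w' ^ 2
              ≤ ∑ b ∈ nbrs w, Q := sum_le_sum (hker w hw)
            _ = (nbrs w).card * Q := by rw [sum_const, nsmul_eq_mul]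
            _ ≤ 4 * Q := by
                apply mul_le_mul_of_nonneg_right _ hQ0
                exact_mod_cast card_le_four
        linarith
    _ = lam ^ 2 * (∑ w ∈ S, aw x y d K 1 w ^ 2) * (1 + 32 * Q) := by
        rw [mul_sum, sum_mul]
        apply sum_congr rfl
        intro w _
        ring
    _ ≤ lam ^ 2 * (800000 * N) * (1 + 32 * Q) := by
        apply mul_le_mul_of_nonneg_right _ (by positivity)
        exact mul_le_mul_of_nonneg_left hS3 (sq_nonneg _)
    _ ≤ lam ^ 2 * (800000 * (10 * LR)) * (2 * LR + 32 * (C * (1000064 * LR))) := by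
        apply mul_le_mul _ (by linarith) (by positivity) (by positivity)
        exact mul_le_mul_of_nonneg_left (by linarith) (sq_nonneg _)
    _ = (lam * LR) ^ 2 * (8000000 * (2 + 32 * C * 1000064)) := by ring
    _ = 80000 * (2 + 32 * C * 1000064) := by rw [hlamLR]; ring

/-- distances to the complement are at most twice the radius -/
theorem dF_le_R {R : ℕ} {T : Temp} (hT : Fits T R) (x : Pt) : dF T.faceSet x ≤ 2 * R + 1 := by
  by_cases hx : x ∈ T.faceSet
  · have h1 : x ∈ box (0, 0) R := by exact_mod_cast hT hx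
    have h2 : dn (0, 0) x ≤ R := mem_box_dn.1 h1
    rw [dn_le_iff3] at h2
    simp only [zero_sub, abs_neg] at h2
    obtain ⟨h3, h4⟩ := h2
    rw [abs_le] at h3
    have h5 : (((R : ℤ) + 1, x.2) : Pt) ∉ T.faceSet := by
      intro h
      have h6 : (((R : ℤ) + 1, x.2) : Pt) ∈ box (0, 0) R := by exact_mod_cast hT h
      have h7 : dn (0, 0) (((R : ℤ) + 1, x.2) : Pt) ≤ R := mem_box_dn.1 h6
      rw [dn_le_iff3] at h7
      simp only [zero_sub, abs_neg] at h7
      have h8 := (abs_le.1 h7.1).2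
      omega
    refine (G45.dF_le h5).trans ?_
    rw [dn_le_iff3]
    simp only [sub_self, abs_zero]
    push_cast
    refine ⟨?_, by positivity⟩
    rw [abs_le]
    constructor <;> omega
  · rw [G45.dF_of_notMem hx]
    exact Nat.zero_le _

/-- **C_height** -/
theorem c_height (hP : B_plane) (hD : B_dom) : C_height := by
  obtain ⟨C, hC0, hC⟩ := Kinv_sq_le hP hD
  refine ⟨1 / 10, by norm_num, 2 * (Real.exp (80000 * (2 + 32 * C * 1000064)) *
    Real.exp (80000 * (2 + 32 * C * 1000064))), ?_⟩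
  intro R T hT x
  obtain ⟨y, hy, hxy⟩ := G45.exists_dF (G45.exists_notMem (Temp.faceSet_finite T)) x
  obtain ⟨K, hK, hK1, hK2⟩ := exists_K (dF T.faceSet x)
  have h1 := one_copy hC0 hC R T (x := x) (y := y) rfl hxy.le (dF_le_R hT x) hK hK1 hK2
  set lam : ℝ := (1 / 10) / Real.log (R + 2) with hlam
  set L := LS T.V (ps (tV x y (dF T.faceSet x) K) (tH x y (dF T.faceSet x) K)) with hL
  set E := Ex1 T.V L with hE
  set M := Real.exp (80000 * (2 + 32 * C * 1000064)) with hM
  calc Ex T.V (fun ω => Real.cosh (lam * (h ω x : ℝ)))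
      ≤ Ex T.V (fun ω => 2 * (Real.cosh (lam * L ω.1 - lam * E) *
          Real.cosh (lam * L ω.2 - lam * E))) := by
        apply Ex_mono'
        intro ω hω
        have h2 := chain hω x y (dF T.faceSet x) K
        rw [EV_eq hω, H12.h_off hω hy] at h2
        have h3 : (h ω x : ℝ) = L ω.1 - L ω.2 := by
          rw [← h2]; simp
        have h4 : lam * (h ω x : ℝ) = (lam * L ω.1 - lam * E) - (lam * L ω.2 - lam * E) := by
          rw [h3]; ring
        rw [h4]
        exact cosh_sub_le _ _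
    _ = 2 * (Ex1 T.V (fun m => Real.cosh (lam * L m - lam * E)) *
          Ex1 T.V (fun m => Real.cosh (lam * L m - lam * E))) := by
        rw [← Ex_mul_indep]
        unfold Ex
        rw [smul_eq_mul, smul_eq_mul, ← mul_sum]
        ring
    _ ≤ 2 * (M * M) := by
        have h5 : 0 ≤ Ex1 T.V (fun m => Real.cosh (lam * L m - lam * E)) :=
          Ex1_nonneg (fun m _ => (Real.cosh_pos _).le)
        have h6 := mul_le_mul h1 h1 h5 (Real.exp_pos _).le
        linarith

end Vale.Agent.P155.C276
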