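import Vale.Agent.P155.C276.Exp
import Vale.Agent.P155.F.Kbound

/-!
# P155, block C: kernel sums, and the exponential moments of local statistics (`C_local`)
-/

namespace Vale.Agent.P155.C276

open Finset Vale.Agent.P155.F Vale.Agent.P155.Skel

/-- bound of the inverse Kasteleyn matrix, all cases together -/
theorem Kinv_sq_le (hP : B_plane) (hD : B_dom) : ∃ C : ℝ, 0 ≤ C ∧ ∀ (T : Temp) (w b : Pt),
    White w → Black b → Kinv T.V b w ^ 2 ≤
      C / (1 + (dF T.faceSet w : ℝ)) ^ 2 + C / (1 + (dn b w : ℝ)) ^ 2 := by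
  obtain ⟨A, hA⟩ := hP
  obtain ⟨C1, hC1, hKp⟩ := abs_Kp_le hA
  obtain ⟨C2, hC2⟩ := hD A hA
  refine ⟨8 * C1 ^ 2 + 2 * C2 ^ 2, by positivity, ?_⟩
  intro T w b hw hb
  have hnn : 0 ≤ (8 * C1 ^ 2 + 2 * C2 ^ 2) / (1 + (dF T.faceSet w : ℝ)) ^ 2 +
      (8 * C1 ^ 2 + 2 * C2 ^ 2) / (1 + (dn b w : ℝ)) ^ 2 := by positivity
  by_cases hbV : b ∈ T.V
  swap
  · rw [Kinv_off_left hbV]
    simpa using hnn
  by_cases hwV : w ∈ T.V
  swap
  · rw [Kinv_off_right hwV]
    simpa using hnn
  obtain ⟨_, h2, h3⟩ := hC2 T w b hw hb hwV hbV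
  have e0 : (C2 / (1 + (dF T.faceSet w : ℝ))) ^ 2 = C2 ^ 2 / (1 + (dF T.faceSet w : ℝ)) ^ 2 := by
    rw [div_pow]
  have hne : b ≠ w := by
    rintro rfl
    exact black_iff_nw.1 hb hw
  have hdn1 : 1 ≤ dn b w := by
    by_contra hc
    have h0 : dn b w = 0 := by omega
    apply hne
    have h1 : w ∈ box b 0 := mem_box_dn.2 (by omega)
    unfold box at h1
    rw [mem_product, mem_Icc, mem_Icc] at h1
    ext
    · push_cast at h1; omega
    · push_cast at h1; omega
  have hdn1R : (1 : ℝ) ≤ dn b w := by exact_mod_cast hdn1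
  rcases le_or_gt (2 * dn b w) (dF T.faceSet w) with h | h
  · have h4 := h2 h
    have h5 := hKp b w hw hb
    have h6 : |Kinv T.V b w| ≤ C2 / (1 + (dF T.faceSet w : ℝ)) + C1 / (dn b w : ℝ) := by
      calc |Kinv T.V b w| = |(Kinv T.V b w - Kp A b w) + Kp A b w| := by ring_nf
        _ ≤ |Kinv T.V b w - Kp A b w| + |Kp A b w| := abs_add_le _ _
        _ ≤ _ := by linarith
    have h7 : C1 / (dn b w : ℝ) ≤ 2 * C1 / (1 + (dn b w : ℝ)) := by
      rw [div_le_div_iff₀ (by linarith) (by linarith)]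
      nlinarith
    have h8 : |Kinv T.V b w| ≤ C2 / (1 + (dF T.faceSet w : ℝ)) + 2 * C1 / (1 + (dn b w : ℝ)) := by
      linarith
    have h9 : Kinv T.V b w ^ 2 ≤
        (C2 / (1 + (dF T.faceSet w : ℝ)) + 2 * C1 / (1 + (dn b w : ℝ))) ^ 2 := by
      rw [← sq_abs (Kinv T.V b w)]
      exact pow_le_pow_left₀ (abs_nonneg _) h8 2
    have h10 : (C2 / (1 + (dF T.faceSet w : ℝ)) + 2 * C1 / (1 + (dn b w : ℝ))) ^ 2 ≤
        2 * (C2 / (1 + (dF T.faceSet w : ℝ))) ^ 2 + 2 * (2 * C1 / (1 + (dn b w : ℝ))) ^ 2 := by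
      nlinarith [sq_nonneg (C2 / (1 + (dF T.faceSet w : ℝ)) - 2 * C1 / (1 + (dn b w : ℝ)))]
    refine h9.trans (h10.trans ?_)
    rw [div_pow, div_pow]
    apply add_le_add
    · rw [← mul_div_assoc]
      apply div_le_div_of_nonneg_right _ (by positivity)
      nlinarith [sq_nonneg C1]
    · rw [← mul_div_assoc]
      apply div_le_div_of_nonneg_right _ (by positivity)
      nlinarith [sq_nonneg C2]
  · have h4 := h3 (by omega)
    have h9 : Kinv T.V b w ^ 2 ≤ (C2 / (1 + (dF T.faceSet w : ℝ))) ^ 2 := by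
      rw [← sq_abs (Kinv T.V b w)]
      exact pow_le_pow_left₀ (abs_nonneg _) h4 2
    rw [div_pow] at h9
    have h10 : C2 ^ 2 / (1 + (dF T.faceSet w : ℝ)) ^ 2 ≤
        (8 * C1 ^ 2 + 2 * C2 ^ 2) / (1 + (dF T.faceSet w : ℝ)) ^ 2 := by
      apply div_le_div_of_nonneg_right _ (by positivity)
      nlinarith [sq_nonneg C1, sq_nonneg C2]
    have h11 : 0 ≤ (8 * C1 ^ 2 + 2 * C2 ^ 2) / (1 + (dn b w : ℝ)) ^ 2 := by positivity
    linarith

theorem card_box' (x : Pt) (r : ℕ) : (box x r).card = (2 * r + 1) ^ 2 := by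
  unfold box
  rw [card_product, Int.card_Icc, Int.card_Icc]
  have h1 : (x.1 + r + 1 - (x.1 - r)).toNat = 2 * r + 1 := by omega
  have h2 : (x.2 + r + 1 - (x.2 - r)).toNat = 2 * r + 1 := by omega
  rw [h1, h2]
  ring

theorem box_sub (x : Pt) {r r' : ℕ} (h : r ≤ r') : box x r ⊆ box x r' := by
  intro v hv
  rw [mem_box_dn] at hv ⊢
  exact hv.trans h

/-- logarithmic sum over a box -/
theorem sum_box_le (b : Pt) (r : ℕ) :
    ∑ w ∈ box b r, 1 / (1 + (dn b w : ℝ)) ^ 2 ≤ 16 * Real.log (r + 2) := by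
  induction r with
  | zero =>
    have h1 : box b 0 = {b} := by
      ext v
      rw [mem_box_dn, mem_singleton]
      constructor
      · intro h
        have h1 : v ∈ box b 0 := mem_box_dn.2 h
        unfold box at h1
        rw [mem_product, mem_Icc, mem_Icc] at h1
        ext
        · push_cast at h1; omega
        · push_cast at h1; omega
      · rintro rfl
        simp [dn, dinf]
    rw [h1, sum_singleton]
    have h2 : (dn b b : ℝ) = 0 := by simp [dn, dinf]
    rw [h2]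
    have h3 := Real.log_two_gt_d9
    push_cast
    rw [zero_add]
    norm_num at h3 ⊢
    linarith
  | succ r ih =>
    have hsub := box_sub b (Nat.le_succ r)
    rw [← sum_sdiff hsub]
    have h1 : ∑ w ∈ box b (r + 1) \ box b r, 1 / (1 + (dn b w : ℝ)) ^ 2 =
        ∑ w ∈ box b (r + 1) \ box b r, 1 / ((r : ℝ) + 2) ^ 2 := by
      apply sum_congr rfl
      intro w hw
      rw [mem_sdiff, mem_box_dn, mem_box_dn] at hw
      have : dn b w = r + 1 := by omega
      rw [this]
      push_cast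
      ring_nf
    have h2 : ((box b (r + 1) \ box b r).card : ℝ) = 8 * ((r : ℝ) + 1) := by
      rw [card_sdiff_of_subset hsub, card_box', card_box']
      have : (2 * (r + 1) + 1) ^ 2 - (2 * r + 1) ^ 2 = 8 * (r + 1) := by
        have : (2 * (r + 1) + 1) ^ 2 = (2 * r + 1) ^ 2 + 8 * (r + 1) := by ring
        omega
      rw [this]
      push_cast
      ring
    rw [h1, sum_const, nsmul_eq_mul, h2]
    have hr : (0 : ℝ) ≤ r := Nat.cast_nonneg r
    have h3 : 8 * ((r : ℝ) + 1) * (1 / ((r : ℝ) + 2) ^ 2) ≤ 8 / ((r : ℝ) + 2) := by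
      rw [mul_one_div, div_le_div_iff₀ (by positivity) (by positivity)]
      nlinarith
    have h4 : 1 / ((r : ℝ) + 3) ≤ Real.log ((r : ℝ) + 3) - Real.log ((r : ℝ) + 2) := by
      rw [← Real.log_div (by positivity) (by positivity)]
      have h5 := Real.one_sub_inv_le_log_of_pos (show (0 : ℝ) < ((r : ℝ) + 3) / ((r : ℝ) + 2) by
        positivity)
      refine le_trans (le_of_eq ?_) h5
      field_simp
      ring
    have h5 : 8 / ((r : ℝ) + 2) ≤ 16 * (1 / ((r : ℝ) + 3)) := by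
      rw [mul_one_div, div_le_div_iff₀ (by positivity) (by positivity)]
      nlinarith
    push_cast
    have h6 : (r : ℝ) + 1 + 2 = r + 3 := by ring
    rw [h6]
    linarith

/-- both signs -/
theorem cosh_moment {T : Temp} {V : Finset Pt} (hV : Sub T V) (ψ : Pt → Pt → ℝ) (S : Finset Pt)
    (a : Pt → ℝ) (hsupp : ∀ w b, w ∉ S → ψ w b = 0) (ha : ∀ w b, |ψ w b| ≤ a w)
    (ha1 : ∀ w, a w ≤ 1) :
    Ex1 V (fun m => Real.cosh (LS V ψ m - Ex1 V (LS V ψ))) ≤
      Real.exp (∑ w ∈ S, a w ^ 2 * (1 + 8 * ∑ b ∈ nbrs w, ∑ w' ∈ S, Kinv V b w' ^ 2)) := by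
  have h1 := exp_moment hV ψ S a hsupp ha ha1
  have h2 := exp_moment hV (fun w b => - ψ w b) S a
    (by intro w b hw; simp [hsupp w b hw]) (by intro w b; rw [abs_neg]; exact ha w b) ha1
  have h3 : ∀ m, LS V (fun w b => - ψ w b) m = - LS V ψ m := by
    intro m
    unfold LS
    rw [sum_neg_distrib]
  have h4 : Ex1 V (LS V (fun w b => - ψ w b)) = - Ex1 V (LS V ψ) := by
    have : LS V (fun w b => - ψ w b) = fun m => (-1) * LS V ψ m := by
      funext m
      rw [h3]; ring
    rw [this, Ex1_mul]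
    ring
  simp only [h3, h4] at h2
  set M := Real.exp (∑ w ∈ S, a w ^ 2 * (1 + 8 * ∑ b ∈ nbrs w, ∑ w' ∈ S, Kinv V b w' ^ 2)) with hM
  have h5 : Ex1 V (fun m => Real.cosh (LS V ψ m - Ex1 V (LS V ψ))) =
      1 / 2 * Ex1 V (fun m => Real.exp (LS V ψ m - Ex1 V (LS V ψ))) +
      1 / 2 * Ex1 V (fun m => Real.exp (- LS V ψ m - - Ex1 V (LS V ψ))) := by
    rw [← Ex1_mul, ← Ex1_mul, ← A4.Ex1_add]
    congr 1
    funext m
    rw [Real.cosh_eq]
    have : -(LS V ψ m - Ex1 V (LS V ψ)) = - LS V ψ m - - Ex1 V (LS V ψ) := by ring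
    rw [this]
    ring
  rw [h5]
  linarith

theorem log_ge_one {t : ℝ} (ht : 1 ≤ t) : 1 ≤ Real.log (t + 2) := by
  rw [Real.le_log_iff_exp_le (by linarith)]
  have := Real.exp_one_lt_d9
  linarith

/-- **C_local** -/
theorem c_local (hP : B_plane) (hD : B_dom) : C_local := by
  classical
  obtain ⟨C, hC0, hC⟩ := Kinv_sq_le hP hD
  refine ⟨1, one_pos, Real.exp (9 * (1 + 1152 * C)), ?_⟩
  intro T x t ht1 hdF ψ hψ hsupp L
  have htR : (1 : ℝ) ≤ t := by exact_mod_cast ht1
  have hlog : 1 ≤ Real.log ((t : ℝ) + 2) := log_ge_one htR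
  have hsqrt : 1 ≤ Real.sqrt (Real.log ((t : ℝ) + 2)) := by
    rw [Real.one_le_sqrt]; exact hlog
  set lam : ℝ := 1 / (t * Real.sqrt (Real.log (t + 2))) with hlam
  have hden : 1 ≤ (t : ℝ) * Real.sqrt (Real.log (t + 2)) := by nlinarith
  have hlam0 : 0 < lam := by positivity
  have hlam1 : lam ≤ 1 := by
    rw [hlam, div_le_one (by linarith)]
    exact hden
  have hlam2 : lam ^ 2 * ((t : ℝ) ^ 2 * Real.log (t + 2)) = 1 := by
    rw [hlam, div_pow, mul_pow, Real.sq_sqrt (by linarith)]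
    field_simp
  set S : Finset Pt := (box x t).filter White with hS
  set φ : Pt → Pt → ℝ := fun w b => if White w then lam * ψ w b else 0 with hφ
  have hmem : ∀ w ∈ S, White w ∧ dn x w ≤ t := by
    intro w hw
    obtain ⟨h1, h2⟩ := mem_filter.1 hw
    exact ⟨h2, mem_box_dn.1 h1⟩
  have key := cosh_moment (Temp.sub_self T) φ S (fun _ => lam)
    (by
      intro w b hw
      simp only [hφ]
      split_ifs with h
      · have : w ∉ box x t := fun hh => hw (mem_filter.2 ⟨hh, h⟩)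
        rw [hsupp w b this, mul_zero]
      · rfl)
    (by
      intro w b
      simp only [hφ]
      split_ifs with h
      · rw [abs_mul, abs_of_pos hlam0]
        calc lam * |ψ w b| ≤ lam * 1 := mul_le_mul_of_nonneg_left (hψ w b) hlam0.le
          _ = lam := mul_one _
      · rw [abs_zero]; exact hlam0.le)
    (fun _ => hlam1)
  have hLS : ∀ m, LS T.V φ m = lam * L m := by
    intro m
    simp only [LS, L, mul_sum]
    apply sum_congr rfl
    intro w hw
    simp only [hφ, (mem_filter.1 hw).2, if_true]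
  have hE : Ex1 T.V (LS T.V φ) = lam * Ex1 T.V L := by
    rw [← Ex1_mul]
    congr 1
    funext m
    exact hLS m
  simp only [hLS, hE] at key
  have hfun : (fun m => Real.cosh (lam * L m - lam * Ex1 T.V L)) =
      fun m => Real.cosh (1 / (↑t * Real.sqrt (Real.log (↑t + 2))) * (L m - Ex1 T.V L)) := by
    funext m
    rw [← mul_sub]
  rw [hfun] at key
  refine key.trans (Real.exp_le_exp.2 ?_)
  -- the kernel sums
  have hScard : (S.card : ℝ) ≤ 9 * (t : ℝ) ^ 2 := by
    have h1 : S.card ≤ (2 * t + 1) ^ 2 := by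
      rw [← card_box' x t]
      exact card_filter_le _ _
    have h2 : (S.card : ℝ) ≤ (2 * (t : ℝ) + 1) ^ 2 := by exact_mod_cast h1
    nlinarith
  have hsum1 : ∑ w' ∈ S, C / (1 + (dF T.faceSet w' : ℝ)) ^ 2 ≤ 4 * C := by
    calc ∑ w' ∈ S, C / (1 + (dF T.faceSet w' : ℝ)) ^ 2 ≤ ∑ w' ∈ S, C / (1 + 3 * (t : ℝ)) ^ 2 := by
          apply sum_le_sum
          intro w' hw'
          apply div_le_div_of_nonneg_left hC0 (by positivity)
          apply pow_le_pow_left₀ (by positivity)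
          have h1 := (hmem w' hw').2
          have h2 := dF_le_add T.faceSet x w'
          have h3 : 3 * t ≤ dF T.faceSet w' := by omega
          have h4 : (3 * (t : ℝ)) ≤ dF T.faceSet w' := by exact_mod_cast h3
          linarith
      _ = S.card * (C / (1 + 3 * (t : ℝ)) ^ 2) := by rw [sum_const, nsmul_eq_mul]
      _ ≤ (9 * (t : ℝ) ^ 2) * (C / (1 + 3 * (t : ℝ)) ^ 2) :=
          mul_le_mul_of_nonneg_right hScard (by positivity)
      _ ≤ 4 * C := by
          rw [← mul_div_assoc, div_le_iff₀ (by positivity)]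
          nlinarith [mul_nonneg hC0 (sq_nonneg (t : ℝ)), mul_nonneg hC0 (by positivity : (0:ℝ) ≤ t)]
  have hsum2 : ∀ w ∈ S, ∀ b ∈ nbrs w,
      ∑ w' ∈ S, C / (1 + (dn b w' : ℝ)) ^ 2 ≤ 32 * C * Real.log (t + 2) := by
    intro w hw b hb
    have hsub : S ⊆ box b (2 * t + 1) := by
      intro w' hw'
      rw [mem_box_dn]
      have h1 := (hmem w hw).2
      have h2 := (hmem w' hw').2
      have h3 := dn_tri b w w'
      have h4 := dn_tri w x w'
      rw [dn_symm w x] at h4
      have h5 : dn b w ≤ 1 := by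
        rw [dn_symm]
        have : dinf w b ≤ 1 := by
          have hadj := mem_nbrs.1 hb
          unfold Adj at hadj
          unfold dinf
          have := abs_nonneg (w.1 - b.1)
          have := abs_nonneg (w.2 - b.2)
          apply max_le <;> linarith
        have h6 := dn_cast w b
        omega
      omega
    calc ∑ w' ∈ S, C / (1 + (dn b w' : ℝ)) ^ 2
        ≤ ∑ w' ∈ box b (2 * t + 1), C / (1 + (dn b w' : ℝ)) ^ 2 :=
          sum_le_sum_of_subset_of_nonneg hsub (fun _ _ _ => by positivity)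
      _ = C * ∑ w' ∈ box b (2 * t + 1), 1 / (1 + (dn b w' : ℝ)) ^ 2 := by
          rw [mul_sum]
          apply sum_congr rfl
          intro w' _
          rw [mul_one_div]
      _ ≤ C * (16 * Real.log ((2 * t + 1 : ℕ) + 2)) :=
          mul_le_mul_of_nonneg_left (sum_box_le b _) hC0
      _ ≤ C * (16 * (2 * Real.log (t + 2))) := by
          apply mul_le_mul_of_nonneg_left _ hC0
          apply mul_le_mul_of_nonneg_left _ (by norm_num)
          have : 2 * Real.log ((t : ℝ) + 2) = Real.log (((t : ℝ) + 2) ^ 2) := by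
            rw [Real.log_pow]; push_cast; ring
          rw [this]
          apply Real.log_le_log (by positivity)
          push_cast
          nlinarith
      _ = 32 * C * Real.log (t + 2) := by ring
  have hker : ∀ w ∈ S, ∀ b ∈ nbrs w, ∑ w' ∈ S, Kinv T.V b w' ^ 2 ≤ 36 * C * Real.log (t + 2) := by
    intro w hw b hb
    have hbB : Black b := adj_white (mem_nbrs.1 hb) (hmem w hw).1
    calc ∑ w' ∈ S, Kinv T.V b w' ^ 2
        ≤ ∑ w' ∈ S, (C / (1 + (dF T.faceSet w' : ℝ)) ^ 2 + C / (1 + (dn b w' : ℝ)) ^ 2) :=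
          sum_le_sum (fun w' hw' => hC T w' b (hmem w' hw').1 hbB)
      _ ≤ 4 * C + 32 * C * Real.log (t + 2) := by
          rw [sum_add_distrib]
          exact add_le_add hsum1 (hsum2 w hw b hb)
      _ ≤ 36 * C * Real.log (t + 2) := by nlinarith
  calc ∑ w ∈ S, lam ^ 2 * (1 + 8 * ∑ b ∈ nbrs w, ∑ w' ∈ S, Kinv T.V b w' ^ 2)
      ≤ ∑ w ∈ S, lam ^ 2 * ((1 + 1152 * C) * Real.log (t + 2)) := by
        apply sum_le_sum
        intro w hw
        apply mul_le_mul_of_nonneg_left _ (sq_nonneg _)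
        have h1 : ∑ b ∈ nbrs w, ∑ w' ∈ S, Kinv T.V b w' ^ 2 ≤ 4 * (36 * C * Real.log (t + 2)) := by
          calc ∑ b ∈ nbrs w, ∑ w' ∈ S, Kinv T.V b w' ^ 2
              ≤ ∑ b ∈ nbrs w, 36 * C * Real.log (t + 2) := sum_le_sum (hker w hw)
            _ = (nbrs w).card * (36 * C * Real.log (t + 2)) := by rw [sum_const, nsmul_eq_mul]
            _ ≤ 4 * (36 * C * Real.log (t + 2)) := by
                apply mul_le_mul_of_nonneg_right _ (by positivity)
                exact_mod_cast card_le_four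
        nlinarith
    _ = (S.card : ℝ) * (lam ^ 2 * ((1 + 1152 * C) * Real.log (t + 2))) := by
        rw [sum_const, nsmul_eq_mul]
    _ ≤ (9 * (t : ℝ) ^ 2) * (lam ^ 2 * ((1 + 1152 * C) * Real.log (t + 2))) :=
        mul_le_mul_of_nonneg_right hScard (by positivity)
    _ = 9 * (1 + 1152 * C) * (lam ^ 2 * ((t : ℝ) ^ 2 * Real.log (t + 2))) := by ring
    _ = 9 * (1 + 1152 * C) := by rw [hlam2, mul_one]

end Vale.Agent.P155.C276
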