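import Vale.Agent.P155.C276.Flow
import Vale.Agent.P155.H12.Inputs

/-!
# P155, block C: the chain of boxes from a face to the nearest outer face
-/

namespace Vale.Agent.P155.C276

open Finset Vale.Agent.P155.F Vale.Agent.P155.Skel Vale.Agent.P155.E1

/-! ## Numerical lemmas -/

theorem geom_le (k n : ℕ) : ∑ l ∈ Ico k (k + n), (1 / 2 : ℝ) ^ l ≤ 2 * (1 / 2) ^ k := by
  have h : ∑ l ∈ Ico k (k + n), (1 / 2 : ℝ) ^ l = 2 * (1 / 2) ^ k - 2 * (1 / 2) ^ (k + n) := by
    induction n with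
    | zero => simp
    | succ n ih =>
      rw [← add_assoc, sum_Ico_succ_top (by omega), ih]
      ring
  rw [h]
  have : (0 : ℝ) ≤ 2 * (1 / 2) ^ (k + n) := by positivity
  linarith

theorem sum_half_le (E : Finset ℕ) {k : ℕ} (hk : ∀ l ∈ E, k ≤ l) :
    ∑ l ∈ E, (1 / 2 : ℝ) ^ l ≤ 2 * (1 / 2) ^ k := by
  obtain ⟨N, hN⟩ : ∃ N, ∀ l ∈ E, l < k + N := by
    refine ⟨E.sup id + 1, fun l hl => ?_⟩
    have : l ≤ E.sup id := Finset.le_sup (f := id) hl
    omega
  refine le_trans ?_ (geom_le k N)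
  apply sum_le_sum_of_subset_of_nonneg
  · intro l hl
    exact mem_Ico.2 ⟨hk l hl, hN l hl⟩
  · intro l _ _
    positivity

theorem sq_sum_half_le (E : Finset ℕ) :
    (∑ l ∈ E, (1 / 2 : ℝ) ^ l) ^ 2 ≤ 4 * ∑ l ∈ E, (1 / 4 : ℝ) ^ l := by
  rcases E.eq_empty_or_nonempty with rfl | hE
  · simp
  · set k := E.min' hE with hk
    have h1 := sum_half_le E (k := k) (fun l hl => E.min'_le l hl)
    have h0 : 0 ≤ ∑ l ∈ E, (1 / 2 : ℝ) ^ l := sum_nonneg (fun l _ => by positivity)
    have h2 : (1 / 4 : ℝ) ^ k ≤ ∑ l ∈ E, (1 / 4 : ℝ) ^ l :=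
      single_le_sum (f := fun l => (1 / 4 : ℝ) ^ l) (fun l _ => by positivity) (E.min'_mem hE)
    calc (∑ l ∈ E, (1 / 2 : ℝ) ^ l) ^ 2 ≤ (2 * (1 / 2) ^ k) ^ 2 := pow_le_pow_left₀ h0 h1 2
      _ = 4 * (1 / 4 : ℝ) ^ k := by
          rw [mul_pow, ← pow_mul, mul_comm k 2, pow_mul]
          norm_num
      _ ≤ 4 * ∑ l ∈ E, (1 / 4 : ℝ) ^ l := by linarith

open Classical in
/-- the weight of a family of regions -/
noncomputable def fw (F : ℕ → Finset Pt) (n : ℕ) (w : Pt) : ℝ :=
  ∑ l ∈ range n, if w ∈ F l then (1 / 2 : ℝ) ^ l else 0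

theorem fw_nonneg (F : ℕ → Finset Pt) (n : ℕ) (w : Pt) : 0 ≤ fw F n w := by
  classical
  unfold fw
  apply sum_nonneg
  intro l _
  split_ifs
  · positivity
  · exact le_refl _

theorem fw_le_two (F : ℕ → Finset Pt) (n : ℕ) (w : Pt) : fw F n w ≤ 2 := by
  classical
  unfold fw
  rw [← sum_filter]
  have := sum_half_le ((range n).filter (fun l => w ∈ F l)) (k := 0) (fun _ _ => Nat.zero_le _)
  simpa using this

theorem fw_sq_le (F : ℕ → Finset Pt) (n : ℕ) (S : Finset Pt) {C1 : ℝ}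
    (hF : ∀ l < n, ((F l).card : ℝ) ≤ C1 * 4 ^ l) :
    ∑ w ∈ S, fw F n w ^ 2 ≤ 4 * C1 * n := by
  classical
  calc ∑ w ∈ S, fw F n w ^ 2
      ≤ ∑ w ∈ S, 4 * ∑ l ∈ range n, (if w ∈ F l then (1 / 4 : ℝ) ^ l else 0) := by
        apply sum_le_sum
        intro w _
        unfold fw
        rw [← sum_filter, ← sum_filter]
        exact sq_sum_half_le _
    _ = 4 * ∑ l ∈ range n, ∑ w ∈ S, (if w ∈ F l then (1 / 4 : ℝ) ^ l else 0) := by
        rw [← mul_sum, sum_comm]
    _ ≤ 4 * ∑ l ∈ range n, C1 := by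
        apply mul_le_mul_of_nonneg_left _ (by norm_num)
        apply sum_le_sum
        intro l hl
        rw [← sum_filter, sum_const, nsmul_eq_mul]
        have h1 : ((S.filter (fun w => w ∈ F l)).card : ℝ) ≤ (F l).card := by
          have : (S.filter (fun w => w ∈ F l)).card ≤ (F l).card :=
            card_le_card (fun w hw => (mem_filter.1 hw).2)
          exact_mod_cast this
        calc ((S.filter (fun w => w ∈ F l)).card : ℝ) * (1 / 4) ^ l
            ≤ (C1 * 4 ^ l) * (1 / 4) ^ l :=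
              mul_le_mul_of_nonneg_right (h1.trans (hF l (mem_range.1 hl))) (by positivity)
          _ = C1 := by
              rw [mul_assoc, ← mul_pow]; norm_num
    _ = 4 * C1 * n := by
        rw [sum_const, card_range, nsmul_eq_mul]; ring

/-- sum of the inverse squared distances over the union of a family -/
theorem sum_dF_le (O : Set Pt) (F : ℕ → Finset Pt) (n : ℕ) {C1 : ℝ}
    (hF : ∀ l < n, ((F l).card : ℝ) ≤ C1 * 4 ^ l)
    (hd : ∀ l < n, ∀ w ∈ F l, (2 : ℝ) ^ l ≤ 1 + (dF O w : ℝ)) :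
    ∑ l ∈ range n, ∑ w ∈ F l, 1 / (1 + (dF O w : ℝ)) ^ 2 ≤ C1 * n := by
  calc ∑ l ∈ range n, ∑ w ∈ F l, 1 / (1 + (dF O w : ℝ)) ^ 2 ≤ ∑ l ∈ range n, C1 := by
        apply sum_le_sum
        intro l hl
        have hl' := mem_range.1 hl
        calc ∑ w ∈ F l, 1 / (1 + (dF O w : ℝ)) ^ 2 ≤ ∑ w ∈ F l, 1 / (4 : ℝ) ^ l := by
              apply sum_le_sum
              intro w hw
              apply one_div_le_one_div_of_le (by positivity)
              calc (4 : ℝ) ^ l = ((2 : ℝ) ^ l) ^ 2 := by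
                    rw [← pow_mul, mul_comm l 2, pow_mul]; norm_num
                _ ≤ (1 + (dF O w : ℝ)) ^ 2 := pow_le_pow_left₀ (by positivity) (hd l hl' w hw) 2
          _ = (F l).card * (1 / (4 : ℝ) ^ l) := by rw [sum_const, nsmul_eq_mul]
          _ ≤ (C1 * 4 ^ l) * (1 / (4 : ℝ) ^ l) :=
              mul_le_mul_of_nonneg_right (hF l hl') (by positivity)
          _ = C1 := by field_simp
    _ = C1 * n := by rw [sum_const, card_range, nsmul_eq_mul]; ring

/-! ## The chain -/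

/-- radii of the boxes -/
def rs (l : ℕ) : ℕ := 2 ^ l - 1

theorem rs_zero : rs 0 = 0 := rfl

theorem rs_mono {l l' : ℕ} (h : l ≤ l') : rs l ≤ rs l' := by
  unfold rs
  exact Nat.sub_le_sub_right (Nat.pow_le_pow_right (by norm_num) h) 1

theorem two_rs (l : ℕ) : 1 / (2 * (rs l : ℝ) + 1) ≤ (1 / 2) ^ l := by
  have h1 : (2 : ℝ) ^ l ≤ 2 * (rs l : ℝ) + 1 := by
    unfold rs
    have h2 : 1 ≤ 2 ^ l := Nat.one_le_two_pow
    have h3 : (1 : ℝ) ≤ 2 ^ l := by exact_mod_cast h2
    push_cast [Nat.cast_sub h2]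
    linarith
  rw [one_div_pow]
  exact one_div_le_one_div_of_le (by positivity) h1

/-- distances of the centres from the outer face -/
def Dl (l : ℕ) : ℕ := if l = 0 then 0 else 64 * 2 ^ l

/-- centres on the segment from `y` to `x` -/
def pk (x y : Pt) (d : ℕ) (l : ℕ) : Pt :=
  (y.1 + (Dl l * (x.1 - y.1)) / d, y.2 + (Dl l * (x.2 - y.2)) / d)

theorem pk_zero (x y : Pt) (d : ℕ) : pk x y d 0 = y := by
  unfold pk Dl
  simp

theorem coord_bd {D d t : ℤ} (hD : 0 ≤ D) (hDd : D ≤ d) (ht : -d ≤ t) (ht' : t ≤ d) :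
    -D ≤ D * t / d ∧ D * t / d ≤ D ∧ -(d - D) ≤ t - D * t / d ∧ t - D * t / d ≤ d - D := by
  rcases eq_or_lt_of_le (hD.trans hDd) with h0 | hd
  · have hD0 : D = 0 := by omega
    have ht0 : t = 0 := by omega
    subst hD0 ht0
    rw [← h0]
    simp
  · have h1 := Int.mul_ediv_add_emod (D * t) d
    have h2 := Int.emod_nonneg (D * t) hd.ne'
    have h3 := Int.emod_lt_of_pos (D * t) hd
    set q := D * t / d with hq
    set r := D * t % d with hr
    have hlow : ∀ a : ℤ, a * d ≤ D * t → a ≤ q := by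
      intro a ha
      by_contra hc
      push Not at hc
      have : q + 1 ≤ a := hc
      nlinarith
    have hup : ∀ a : ℤ, D * t ≤ a * d → q ≤ a := by
      intro a ha
      by_contra hc
      push Not at hc
      have : a + 1 ≤ q := hc
      nlinarith
    refine ⟨hlow _ (by nlinarith), hup _ (by nlinarith), ?_, ?_⟩
    · have := hup (t + (d - D)) (by nlinarith [mul_nonneg (sub_nonneg.2 hDd) (by linarith : 0 ≤ d + t)])
      linarith
    · have := hlow (t - (d - D)) (by nlinarith [mul_nonneg (sub_nonneg.2 hDd) (by linarith : 0 ≤ d - t)])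
      linarith

theorem dn_le_iff3 {u v : Pt} {r : ℕ} : dn u v ≤ r ↔ (|u.1 - v.1| ≤ r ∧ |u.2 - v.2| ≤ r) := by
  have h := dn_cast u v
  constructor
  · intro hh
    have h1 : dinf u v ≤ r := by rw [← h]; exact_mod_cast hh
    unfold dinf at h1
    exact ⟨(le_max_left _ _).trans h1, (le_max_right _ _).trans h1⟩
  · rintro ⟨h1, h2⟩
    have h3 : dinf u v ≤ r := max_le h1 h2
    rw [← h] at h3
    exact_mod_cast h3

theorem pk_bd {x y : Pt} {d l : ℕ} (hxy : dn x y ≤ d) (hD : Dl l ≤ d) :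
    dn y (pk x y d l) ≤ Dl l ∧ dn x (pk x y d l) ≤ d - Dl l := by
  obtain ⟨h1, h2⟩ := dn_le_iff3.1 hxy
  rw [abs_le] at h1 h2
  have hD' : ((Dl l : ℕ) : ℤ) ≤ d := by exact_mod_cast hD
  obtain ⟨a1, a2, a3, a4⟩ := coord_bd (D := Dl l) (d := d) (t := x.1 - y.1) (by positivity) hD'
    h1.1 h1.2
  obtain ⟨b1, b2, b3, b4⟩ := coord_bd (D := Dl l) (d := d) (t := x.2 - y.2) (by positivity) hD'
    h2.1 h2.2
  constructor
  · rw [dn_le_iff3]
    unfold pk
    simp only
    constructor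
    · rw [abs_le]; constructor <;> linarith
    · rw [abs_le]; constructor <;> linarith
  · rw [dn_le_iff3]
    unfold pk
    simp only
    push_cast [Nat.cast_sub hD]
    constructor
    · rw [abs_le]; constructor <;> linarith
    · rw [abs_le]; constructor <;> linarith

theorem box_in {c c' : Pt} {r s t : ℕ} (h : dn c c' ≤ r) (hr : r + s ≤ t) : box c' s ⊆ box c t := by
  intro z hz
  rw [mem_box_dn] at hz ⊢
  have := dn_tri c c' z
  omega

theorem self_mem_box (c : Pt) (r : ℕ) : c ∈ box c r := by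
  rw [mem_box_dn]
  simp [dn, dinf]

theorem box_zero (c : Pt) : box c 0 = {c} := by
  ext v
  rw [mem_singleton]
  constructor
  · intro h1
    unfold box at h1
    rw [mem_product, mem_Icc, mem_Icc] at h1
    ext
    · push_cast at h1; omega
    · push_cast at h1; omega
  · rintro rfl
    exact self_mem_box _ _

theorem av_box_zero (c : Pt) (g : Pt → ℝ) : av (box c 0) g = g c := by
  unfold av
  rw [box_zero]
  simp

theorem EV_add {V : Finset Pt} (cv ch cv' ch' : Pt → ℝ) (ω : Conf) :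
    EV V (fun p => cv p + cv' p) (fun p => ch p + ch' p) ω = EV V cv ch ω + EV V cv' ch' ω := by
  unfold EV
  rw [← sum_add_distrib]
  apply sum_congr rfl
  intro p _
  ring

theorem EV_sub {V : Finset Pt} (cv ch cv' ch' : Pt → ℝ) (ω : Conf) :
    EV V (fun p => cv p - cv' p) (fun p => ch p - ch' p) ω = EV V cv ch ω - EV V cv' ch' ω := by
  unfold EV
  rw [← sum_sub_distrib]
  apply sum_congr rfl
  intro p _
  ring

theorem EV_sum {V : Finset Pt} (n : ℕ) (cv ch : ℕ → Pt → ℝ) (ω : Conf) :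
    EV V (fun p => ∑ l ∈ range n, cv l p) (fun p => ∑ l ∈ range n, ch l p) ω =
      ∑ l ∈ range n, EV V (cv l) (ch l) ω := by
  unfold EV
  rw [sum_comm]
  apply sum_congr rfl
  intro p _
  rw [sum_add_distrib, ← sum_mul, ← sum_mul]

/-- the box number `l` around `x` -/
noncomputable def AX (x : Pt) (l : ℕ) : Finset Pt := box x (rs l)

/-- the box number `l` around the point `pk l` -/
noncomputable def AY (x y : Pt) (d l : ℕ) : Finset Pt := box (pk x y d l) (rs l)

/-- total vertical weights -/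
noncomputable def tV (x y : Pt) (d K : ℕ) (p : Pt) : ℝ :=
  (∑ l ∈ range K, cV (AX x l) (AX x (l + 1)) p) + cV (AX x K) (AY x y d K) p -
    ∑ l ∈ range K, cV (AY x y d l) (AY x y d (l + 1)) p

/-- total horizontal weights -/
noncomputable def tH (x y : Pt) (d K : ℕ) (p : Pt) : ℝ :=
  (∑ l ∈ range K, cH (AX x l) (AX x (l + 1)) p) + cH (AX x K) (AY x y d K) p -
    ∑ l ∈ range K, cH (AY x y d l) (AY x y d (l + 1)) p

theorem chain {V : Finset Pt} {ω : Conf} (hω : ω ∈ DD V) (x y : Pt) (d K : ℕ) :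
    (h ω x : ℝ) - h ω y = EV V (tV x y d K) (tH x y d K) ω := by
  have hne : ∀ (c : Pt) (r : ℕ), (box c r).Nonempty := fun c r => ⟨c, self_mem_box c r⟩
  have e1 : EV V (tV x y d K) (tH x y d K) ω =
      EV V (fun p => ∑ l ∈ range K, cV (AX x l) (AX x (l + 1)) p)
        (fun p => ∑ l ∈ range K, cH (AX x l) (AX x (l + 1)) p) ω +
      EV V (cV (AX x K) (AY x y d K)) (cH (AX x K) (AY x y d K)) ω -
      EV V (fun p => ∑ l ∈ range K, cV (AY x y d l) (AY x y d (l + 1)) p)
        (fun p => ∑ l ∈ range K, cH (AY x y d l) (AY x y d (l + 1)) p) ω := by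
    rw [← EV_add, ← EV_sub]
    rfl
  have eM : EV V (cV (AX x K) (AY x y d K)) (cH (AX x K) (AY x y d K)) ω =
      av (AX x K) (fun z => (h ω z : ℝ)) - av (AY x y d K) (fun z => (h ω z : ℝ)) :=
    (link hω (hne _ _) (hne _ _)).symm
  rw [e1, EV_sum, EV_sum, eM]
  have e2 : ∀ l, EV V (cV (AX x l) (AX x (l + 1))) (cH (AX x l) (AX x (l + 1))) ω =
      av (AX x l) (fun z => (h ω z : ℝ)) - av (AX x (l + 1)) (fun z => (h ω z : ℝ)) :=
    fun l => (link hω (hne _ _) (hne _ _)).symm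
  have e3 : ∀ l, EV V (cV (AY x y d l) (AY x y d (l + 1))) (cH (AY x y d l) (AY x y d (l + 1))) ω =
      av (AY x y d l) (fun z => (h ω z : ℝ)) - av (AY x y d (l + 1)) (fun z => (h ω z : ℝ)) :=
    fun l => (link hω (hne _ _) (hne _ _)).symm
  simp_rw [e2, e3]
  rw [sum_range_sub', sum_range_sub']
  have e4 : av (AX x 0) (fun z => (h ω z : ℝ)) = h ω x := by
    unfold AX
    rw [rs_zero, av_box_zero]
  have e5 : av (AY x y d 0) (fun z => (h ω z : ℝ)) = h ω y := by
    unfold AY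
    rw [rs_zero, av_box_zero, pk_zero]
  rw [e4, e5]
  ring

/-- regions of the first family -/
noncomputable def F1 (x : Pt) (d K l : ℕ) (e : ℕ) : Finset Pt :=
  if l < K then box x (rs (l + 1) + e) else box x (d - Dl K + rs K + e)

/-- regions of the second family -/
noncomputable def F2 (x y : Pt) (d l : ℕ) (e : ℕ) : Finset Pt :=
  box y (Dl (l + 1) + rs (l + 1) + e) ∩ box x (d - Dl l + rs (l + 1) + e)

theorem F1_lt {x : Pt} {d K l e : ℕ} (h : l < K) : F1 x d K l e = box x (rs (l + 1) + e) := by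
  unfold F1; rw [if_pos h]

theorem F1_K (x : Pt) (d K e : ℕ) : F1 x d K K e = box x (d - Dl K + rs K + e) := by
  unfold F1; rw [if_neg (lt_irrefl _)]

section
variable {x y : Pt} {d K : ℕ} (hxy : dn x y ≤ d) (hK : ∀ l ≤ K, Dl l ≤ d)

theorem Dl_mono {l l' : ℕ} (h : l ≤ l') : Dl l ≤ Dl l' := by
  unfold Dl
  by_cases h1 : l = 0
  · rw [if_pos h1]; exact Nat.zero_le _
  · rw [if_neg h1, if_neg (by omega)]
    exact Nat.mul_le_mul_left _ (Nat.pow_le_pow_right (by norm_num) h)

include hxy hK in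
theorem cw_bd (c : Finset Pt → Finset Pt → Pt → ℝ)
    (hc : ∀ (a a' : Pt) (s s' : ℕ) (p : Pt), |c (box a s) (box a' s') p| ≤
      1 / (2 * (min s s' : ℕ) + 1 : ℝ))
    (hm : ∀ {A B : Finset Pt} {a : Pt} {r : ℕ}, A ⊆ box a r → B ⊆ box a r → ∀ {p : Pt},
      p ∉ box a r → c A B p = 0) (p : Pt) :
    |(∑ l ∈ range K, c (AX x l) (AX x (l + 1)) p) + c (AX x K) (AY x y d K) p -
      ∑ l ∈ range K, c (AY x y d l) (AY x y d (l + 1)) p| ≤
      fw (fun l => F1 x d K l 0) (K + 1) p + fw (fun l => F2 x y d l 0) K p := by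
  classical
  have hX : ∀ l ∈ range K, |c (AX x l) (AX x (l + 1)) p| ≤
      if p ∈ F1 x d K l 0 then (1 / 2 : ℝ) ^ l else 0 := by
    intro l hl
    rw [F1_lt (mem_range.1 hl), add_zero]
    by_cases hp : p ∈ box x (rs (l + 1))
    · rw [if_pos hp]
      refine (hc _ _ _ _ _).trans ?_
      rw [min_eq_left (rs_mono (Nat.le_succ l))]
      exact two_rs l
    · have h0 : c (AX x l) (AX x (l + 1)) p = 0 :=
        hm (A := AX x l) (B := AX x (l + 1)) (a := x) (r := rs (l + 1))
          (box_sub x (rs_mono (Nat.le_succ l))) (subset_refl _) hp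
      rw [if_neg hp, h0, abs_zero]
  have hM : |c (AX x K) (AY x y d K) p| ≤
      if p ∈ F1 x d K K 0 then (1 / 2 : ℝ) ^ K else 0 := by
    rw [F1_K, add_zero]
    by_cases hp : p ∈ box x (d - Dl K + rs K)
    · rw [if_pos hp]
      refine (hc _ _ _ _ _).trans ?_
      rw [min_self]
      exact two_rs K
    · have h0 : c (AX x K) (AY x y d K) p = 0 :=
        hm (A := AX x K) (B := AY x y d K) (a := x) (r := d - Dl K + rs K)
          (box_sub x (show rs K ≤ d - Dl K + rs K by omega))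
          (box_in (pk_bd hxy (hK K le_rfl)).2 le_rfl) hp
      rw [if_neg hp, h0, abs_zero]
  have hY : ∀ l ∈ range K, |c (AY x y d l) (AY x y d (l + 1)) p| ≤
      if p ∈ F2 x y d l 0 then (1 / 2 : ℝ) ^ l else 0 := by
    intro l hl
    have hl' := mem_range.1 hl
    have b1 := pk_bd hxy (hK l (by omega))
    have b2 := pk_bd hxy (hK (l + 1) (by omega))
    have hD : Dl l ≤ Dl (l + 1) := Dl_mono (Nat.le_succ l)
    have hr : rs l ≤ rs (l + 1) := rs_mono (Nat.le_succ l)
    unfold F2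
    rw [add_zero, add_zero]
    by_cases hp : p ∈ box y (Dl (l + 1) + rs (l + 1)) ∩ box x (d - Dl l + rs (l + 1))
    · rw [if_pos hp]
      refine (hc _ _ _ _ _).trans ?_
      rw [min_eq_left (rs_mono (Nat.le_succ l))]
      exact two_rs l
    · rw [if_neg hp]
      rw [mem_inter, not_and_or] at hp
      rcases hp with hp | hp
      · have h0 : c (AY x y d l) (AY x y d (l + 1)) p = 0 :=
          hm (A := AY x y d l) (B := AY x y d (l + 1)) (a := y) (r := Dl (l + 1) + rs (l + 1))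
            (box_in b1.1 (show Dl l + rs l ≤ Dl (l + 1) + rs (l + 1) by omega))
            (box_in b2.1 le_rfl) hp
        rw [h0, abs_zero]
      · have h0 : c (AY x y d l) (AY x y d (l + 1)) p = 0 :=
          hm (A := AY x y d l) (B := AY x y d (l + 1)) (a := x) (r := d - Dl l + rs (l + 1))
            (box_in b1.2 (show d - Dl l + rs l ≤ d - Dl l + rs (l + 1) by omega))
            (box_in b2.2 (show d - Dl (l + 1) + rs (l + 1) ≤ d - Dl l + rs (l + 1) by omega)) hp
        rw [h0, abs_zero]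
  unfold fw
  rw [sum_range_succ]
  calc |(∑ l ∈ range K, c (AX x l) (AX x (l + 1)) p) + c (AX x K) (AY x y d K) p -
        ∑ l ∈ range K, c (AY x y d l) (AY x y d (l + 1)) p|
      ≤ |∑ l ∈ range K, c (AX x l) (AX x (l + 1)) p| + |c (AX x K) (AY x y d K) p| +
        |∑ l ∈ range K, c (AY x y d l) (AY x y d (l + 1)) p| :=
        (abs_sub _ _).trans (add_le_add (abs_add_le _ _) le_rfl)
    _ ≤ _ := by
        refine add_le_add (add_le_add ?_ hM) ?_
        · exact (abs_sum_le_sum_abs _ _).trans (sum_le_sum hX)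
        · exact (abs_sum_le_sum_abs _ _).trans (sum_le_sum hY)

/-- the weights of the points -/
noncomputable def aw (x y : Pt) (d K e : ℕ) (w : Pt) : ℝ :=
  fw (fun l => F1 x d K l e) (K + 1) w + fw (fun l => F2 x y d l e) K w

include hxy hK in
theorem tV_le (p : Pt) : |tV x y d K p| ≤ aw x y d K 0 p := by
  apply cw_bd hxy hK cV
  · intro a a' s s' p
    refine (abs_cV_le a a' s s' p).trans ?_
    apply one_div_le_one_div_of_le (by positivity)
    have : ((min s s' : ℕ) : ℝ) ≤ s := by exact_mod_cast min_le_left s s'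
    linarith
  · intro A B a r hA hB p hp
    exact cV_mem hA hB hp

include hxy hK in
theorem tH_le (p : Pt) : |tH x y d K p| ≤ aw x y d K 0 p := by
  apply cw_bd hxy hK cH
  · intro a a' s s' p
    refine (abs_cH_le a a' s s' p).trans ?_
    apply one_div_le_one_div_of_le (by positivity)
    have : ((min s s' : ℕ) : ℝ) ≤ s' := by exact_mod_cast min_le_right s s'
    linarith
  · intro A B a r hA hB p hp
    exact cH_mem hA hB hp

end

theorem fw_mono {F F' : ℕ → Finset Pt} {n : ℕ} {p q : Pt}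
    (h : ∀ l, p ∈ F l → q ∈ F' l) : fw F n p ≤ fw F' n q := by
  classical
  unfold fw
  apply sum_le_sum
  intro l _
  by_cases h1 : p ∈ F l
  · rw [if_pos h1, if_pos (h l h1)]
  · rw [if_neg h1]
    split_ifs
    · positivity
    · exact le_refl _

theorem aw_mono {x y : Pt} {d K : ℕ} {p q : Pt} (hpq : dn p q ≤ 1) :
    aw x y d K 0 p ≤ aw x y d K 1 q := by
  have hbox : ∀ (c : Pt) (r : ℕ), p ∈ box c (r + 0) → q ∈ box c (r + 1) := by
    intro c r hp
    rw [mem_box_dn] at hp ⊢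
    have := dn_tri c p q
    omega
  unfold aw
  apply add_le_add
  · apply fw_mono
    intro l hl
    unfold F1 at hl ⊢
    split_ifs at hl ⊢ with h
    · exact hbox _ _ hl
    · exact hbox _ _ hl
  · apply fw_mono
    intro l hl
    unfold F2 at hl ⊢
    rw [mem_inter] at hl ⊢
    exact ⟨hbox _ _ hl.1, hbox _ _ hl.2⟩

theorem aw_nonneg (x y : Pt) (d K e : ℕ) (w : Pt) : 0 ≤ aw x y d K e w :=
  add_nonneg (fw_nonneg _ _ _) (fw_nonneg _ _ _)

theorem aw_le_four (x y : Pt) (d K e : ℕ) (w : Pt) : aw x y d K e w ≤ 4 := by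
  have h1 := fw_le_two (fun l => F1 x d K l e) (K + 1) w
  have h2 := fw_le_two (fun l => F2 x y d l e) K w
  unfold aw
  linarith

/-- the edge statistic of the chain is bounded by the weights -/
theorem abs_ps_chain {x y : Pt} {d K : ℕ} (hxy : dn x y ≤ d) (hK : ∀ l ≤ K, Dl l ≤ d) (w b : Pt) :
    |ps (tV x y d K) (tH x y d K) w b| ≤ aw x y d K 1 w := by
  apply abs_ps_le _ _ (aw x y d K 0) _ (aw_nonneg x y d K 1) (tV_le hxy hK) (tH_le hxy hK)
  · intro p
    exact aw_mono (by simp [dn, dinf])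
  · intro p
    exact aw_mono (by rw [dn_le_iff3]; simp)
  · intro p
    exact aw_mono (by rw [dn_le_iff3]; simp)

end Vale.Agent.P155.C276
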