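import Mathlib

/-!
# P155, block C: `|det (1 + A)| ≤ exp (tr A + ½ ‖A‖²)`
-/

namespace Vale.Agent.P155.C276

open Finset Matrix

variable {n : Type*} [Fintype n] [DecidableEq n]

theorem det_psd_le {P : Matrix n n ℝ} (hP : P.PosSemidef) :
    P.det ≤ Real.exp (P.trace - Fintype.card n) := by
  have h1 : P.det = ∏ i, hP.isHermitian.eigenvalues i := by
    have := hP.isHermitian.det_eq_prod_eigenvalues
    simpa using this
  have h2 : P.trace = ∑ i, hP.isHermitian.eigenvalues i := by
    have := hP.isHermitian.trace_eq_sum_eigenvalues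
    simpa using this
  rw [h1, h2]
  calc ∏ i, hP.isHermitian.eigenvalues i
      ≤ ∏ i, Real.exp (hP.isHermitian.eigenvalues i - 1) := by
        apply Finset.prod_le_prod
        · intro i _
          exact hP.eigenvalues_nonneg i
        · intro i _
          have := Real.add_one_le_exp (hP.isHermitian.eigenvalues i - 1)
          linarith
    _ = Real.exp (∑ i, hP.isHermitian.eigenvalues i - Fintype.card n) := by
        rw [← Real.exp_sum, Finset.sum_sub_distrib]
        simp

theorem abs_det_one_add_le (A : Matrix n n ℝ) :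
    |(1 + A).det| ≤ Real.exp (A.trace + 1 / 2 * ∑ i, ∑ j, A i j ^ 2) := by
  have hP : ((1 + A)ᴴ * (1 + A)).PosSemidef := posSemidef_conjTranspose_mul_self _
  have h1 := det_psd_le hP
  have h2 : ((1 + A)ᴴ * (1 + A)).det = (1 + A).det ^ 2 := by
    rw [Matrix.det_mul, Matrix.det_conjTranspose]
    simp [sq]
  have h3 : ((1 + A)ᴴ * (1 + A)).trace = ∑ i, ∑ j, (1 + A) j i ^ 2 := by
    rw [Matrix.trace]
    apply Finset.sum_congr rfl
    intro i _
    rw [Matrix.diag_apply, Matrix.mul_apply]
    apply Finset.sum_congr rfl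
    intro j _
    rw [Matrix.conjTranspose_apply]
    simp [sq]
  have h4 : ∑ i, ∑ j, (1 + A) j i ^ 2 =
      Fintype.card n + 2 * A.trace + ∑ i, ∑ j, A i j ^ 2 := by
    have e1 : ∀ i j : n, (1 + A) j i ^ 2 = (if j = i then 1 + 2 * A j i else 0) + A j i ^ 2 := by
      intro i j
      rw [Matrix.add_apply, Matrix.one_apply]
      split_ifs <;> ring
    simp_rw [e1, Finset.sum_add_distrib]
    rw [Finset.sum_comm (f := fun i j => A j i ^ 2)]
    congr 1
    have e2 : ∀ i : n, ∑ j : n, (if j = i then 1 + 2 * A j i else 0) = 1 + 2 * A i i := by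
      intro i
      simp
    simp_rw [e2, Finset.sum_add_distrib, ← Finset.mul_sum]
    simp [Matrix.trace]
  rw [h2, h3, h4] at h1
  have h5 : (1 + A).det ^ 2 ≤ (Real.exp (A.trace + 1 / 2 * ∑ i, ∑ j, A i j ^ 2)) ^ 2 := by
    refine h1.trans (le_of_eq ?_)
    rw [← Real.exp_nat_mul]
    congr 1
    push_cast
    ring
  exact abs_le_of_sq_le_sq h5 (Real.exp_pos _).le

end Vale.Agent.P155.C276
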