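import Vale.Agent.P155.C276.Det
import Vale.Agent.P155.A4.Main
import Vale.Agent.P155.F.F3
import Vale.Agent.P155.A.TempMain

/-!
# P155, block C: exponential moments of linear statistics of one copy
-/

namespace Vale.Agent.P155.C276

open Finset Vale.Agent.P155.F Vale.Agent.P155.Skel

/-- the linear statistic of a matching -/
noncomputable def LS (V : Finset Pt) (ψ : Pt → Pt → ℝ) (m : Pt → Pt) : ℝ :=
  ∑ w ∈ V.filter White, ψ w (m w)

/-- the probability of the edge `{w,b}`, as a product -/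
noncomputable def pe (V : Finset Pt) (w b : Pt) : ℝ := K w b * Kinv V b w

section
variable {T : Temp} {V : Finset Pt} (hV : Sub T V)

theorem Ex1_sum {ι : Type*} (V : Finset Pt) (s : Finset ι) (f : ι → (Pt → Pt) → ℝ) :
    Ex1 V (fun m => ∑ i ∈ s, f i m) = ∑ i ∈ s, Ex1 V (f i) := by
  unfold Ex1
  rw [sum_comm, mul_sum]

theorem Ex1_mul (V : Finset Pt) (c : ℝ) (f : (Pt → Pt) → ℝ) :
    Ex1 V (fun m => c * f m) = c * Ex1 V f := by
  unfold Ex1
  rw [← mul_sum]
  ring

theorem Ex1_congr {V : Finset Pt} {f g : (Pt → Pt) → ℝ} (h : ∀ m ∈ PM V, f m = g m) :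
    Ex1 V f = Ex1 V g := by
  unfold Ex1
  rw [sum_congr rfl h]

theorem Ex1_nonneg {V : Finset Pt} {f : (Pt → Pt) → ℝ} (h : ∀ m ∈ PM V, 0 ≤ f m) :
    0 ≤ Ex1 V f := by
  unfold Ex1
  exact mul_nonneg (by positivity) (sum_nonneg h)

include hV in
open Classical in
theorem pe_eq {w b : Pt} (hw : w ∈ V) (hwW : White w) (hadj : Adj w b) :
    pe V w b = Ex1 V (fun m => if m w = b then (1 : ℝ) else 0) := by
  by_cases hb : b ∈ V
  · rw [A4.a_one T V hV w b hwW hw hb hadj]
    rfl
  · unfold pe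
    rw [Kinv_off_left hb, mul_zero]
    symm
    have : ∀ m ∈ PM V, (if m w = b then (1 : ℝ) else 0) = 0 := by
      intro m hm
      rw [if_neg]
      rintro rfl
      exact hb (IsPM.mem (mem_PM.1 hm) hw)
    rw [Ex1_congr this]
    unfold Ex1
    simp

include hV in
theorem pe_nonneg {w b : Pt} (hw : w ∈ V) (hwW : White w) (hadj : Adj w b) : 0 ≤ pe V w b := by
  classical
  rw [pe_eq hV hw hwW hadj]
  apply Ex1_nonneg
  intro m _
  split_ifs <;> norm_num

include hV in
theorem sum_pe {w : Pt} (hw : w ∈ V) (hwW : White w) : ∑ b ∈ nbrs w, pe V w b = 1 := by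
  have := (A4.a_inv T V hV).2.2.1 w w hwW hwW hw hw
  rw [if_pos rfl] at this
  exact this

include hV in
/-- expectation of a function of the partner of `w` -/
theorem Ex1_partner {w : Pt} (hw : w ∈ V) (hwW : White w) (f : Pt → ℝ) :
    Ex1 V (fun m => f (m w)) = ∑ b ∈ nbrs w, f b * pe V w b := by
  classical
  have h1 : ∀ m ∈ PM V, f (m w) = ∑ b ∈ nbrs w, f b * (if m w = b then (1 : ℝ) else 0) := by
    intro m hm
    rw [sum_eq_single_of_mem (m w) (mem_nbrs.2 ((mem_PM.1 hm).adj w hw))]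
    · simp
    · intro b _ hb
      rw [if_neg (fun h => hb h.symm), mul_zero]
  rw [Ex1_congr h1, Ex1_sum]
  apply sum_congr rfl
  intro b hb
  rw [Ex1_mul, pe_eq hV hw hwW (mem_nbrs.1 hb)]

include hV in
theorem Ex1_LS (ψ : Pt → Pt → ℝ) :
    Ex1 V (LS V ψ) = ∑ w ∈ V.filter White, ∑ b ∈ nbrs w, ψ w b * pe V w b := by
  have : Ex1 V (LS V ψ) = Ex1 V (fun m => ∑ w ∈ V.filter White, ψ w (m w)) := rfl
  rw [this, Ex1_sum]
  apply sum_congr rfl
  intro w hw
  exact Ex1_partner hV (mem_filter.1 hw).1 (mem_filter.1 hw).2 (ψ w)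

theorem sum_WV_le {V S : Finset Pt} (f : Pt → ℝ) (hf : ∀ w, 0 ≤ f w) :
    ∑ w : {v // v ∈ V.filter White}, (if (w : Pt) ∈ S then f w else 0) ≤ ∑ w ∈ S, f w := by
  classical
  rw [sum_coe_sort (V.filter White) (fun w => if w ∈ S then f w else 0), ← sum_filter]
  apply sum_le_sum_of_subset_of_nonneg
  · intro w hw
    exact (mem_filter.1 hw).2
  · intro w _ _
    exact hf w

include hV in
/-- **Exponential moments of one copy.** -/
theorem exp_moment (ψ : Pt → Pt → ℝ) (S : Finset Pt) (a : Pt → ℝ)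
    (hsupp : ∀ w b, w ∉ S → ψ w b = 0) (ha : ∀ w b, |ψ w b| ≤ a w) (ha1 : ∀ w, a w ≤ 1) :
    Ex1 V (fun m => Real.exp (LS V ψ m - Ex1 V (LS V ψ))) ≤
      Real.exp (∑ w ∈ S, a w ^ 2 * (1 + 8 * ∑ b ∈ nbrs w, ∑ w' ∈ S, Kinv V b w' ^ 2)) := by
  classical
  have ha0 : ∀ w, 0 ≤ a w := fun w => (abs_nonneg _).trans (ha w w)
  set x : Pt → Pt → ℝ := fun w b => Real.exp (ψ w b) - 1 with hx
  have hψ1 : ∀ w b, |ψ w b| ≤ 1 := fun w b => (ha w b).trans (ha1 w)
  have hx0 : ∀ w b, w ∉ S → x w b = 0 := by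
    intro w b hw
    simp [hx, hsupp w b hw]
  have hxa : ∀ w b, |x w b| ≤ 2 * a w := by
    intro w b
    refine (Real.abs_exp_sub_one_le (hψ1 w b)).trans ?_
    linarith [ha w b]
  have hgen := A4.a_gen T V hV x
  -- the product of the weights
  have hprod : ∀ m : Pt → Pt, ∏ w ∈ V.filter White, (1 + x w (m w)) = Real.exp (LS V ψ m) := by
    intro m
    unfold LS
    rw [Real.exp_sum]
    apply prod_congr rfl
    intro w _
    simp [hx]
  set A : Matrix {v // v ∈ V.filter White} {v // v ∈ V.filter White} ℝ :=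
    Matrix.of (fun (w w' : {v // v ∈ V.filter White}) =>
      ∑ b ∈ nbrs (w : Pt), x w b * K w b * Kinv V b w') with hA
  set A' : Matrix {v // v ∈ V.filter White} {v // v ∈ V.filter White} ℝ :=
    Matrix.of (fun (w w' : {v // v ∈ V.filter White}) => if (w' : Pt) ∈ S then A w w' else 0)
    with hA'
  have hArow : ∀ w : {v // v ∈ V.filter White}, (w : Pt) ∉ S → ∀ w', A w w' = 0 := by
    intro w hw w'
    simp only [hA, Matrix.of_apply]
    apply sum_eq_zero
    intro b _
    rw [hx0 w b hw]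
    ring
  have hdet : (1 + A).det = (1 + A').det := by
    apply det_eq_of_block _ _ (univ.filter (fun w : {v // v ∈ V.filter White} => (w : Pt) ∈ S))
    · intro w hw
      have hw' : (w : Pt) ∉ S := fun h => hw (mem_filter.2 ⟨mem_univ _, h⟩)
      ext w'
      rw [Matrix.add_apply, hArow w hw', add_zero, Matrix.one_apply, Pi.single_apply]
      simp [eq_comm]
    · intro w hw
      have hw' : (w : Pt) ∉ S := fun h => hw (mem_filter.2 ⟨mem_univ _, h⟩)
      ext w'
      rw [Matrix.add_apply, Matrix.one_apply, Pi.single_apply]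
      simp only [hA', Matrix.of_apply, hArow w hw', ite_self, add_zero]
      simp [eq_comm]
    · intro w _ w' hw'
      have := (mem_filter.1 hw').2
      rw [Matrix.add_apply, Matrix.add_apply]
      simp only [hA', Matrix.of_apply, this, if_true]
  have hE : Ex1 V (fun m => Real.exp (LS V ψ m)) = (1 + A').det := by
    rw [← hdet, ← hgen]
    congr 1
    funext m
    exact (hprod m).symm
  have hE0 : 0 ≤ Ex1 V (fun m => Real.exp (LS V ψ m)) :=
    Ex1_nonneg (fun m _ => (Real.exp_pos _).le)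
  have hbd := abs_det_one_add_le A'
  rw [← hE, abs_of_nonneg hE0] at hbd
  -- the trace
  have htr : A'.trace - Ex1 V (LS V ψ) ≤ ∑ w ∈ S, a w ^ 2 := by
    have h1 : A'.trace = ∑ w ∈ V.filter White, ∑ b ∈ nbrs w, x w b * pe V w b := by
      rw [Matrix.trace, ← sum_coe_sort (V.filter White)
        (fun w => ∑ b ∈ nbrs w, x w b * pe V w b)]
      apply sum_congr rfl
      intro w _
      simp only [Matrix.diag_apply, hA', Matrix.of_apply]
      split_ifs with h
      · simp only [hA, Matrix.of_apply]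
        apply sum_congr rfl
        intro b _
        unfold pe
        ring
      · symm
        apply sum_eq_zero
        intro b _
        rw [hx0 w b h, zero_mul]
    rw [h1, Ex1_LS hV, ← sum_sub_distrib]
    have h2 : ∀ w ∈ V.filter White, (∑ b ∈ nbrs w, x w b * pe V w b) -
        (∑ b ∈ nbrs w, ψ w b * pe V w b) ≤ if w ∈ S then a w ^ 2 else 0 := by
      intro w hw
      obtain ⟨hwV, hwW⟩ := mem_filter.1 hw
      rw [← sum_sub_distrib]
      split_ifs with h
      · calc ∑ b ∈ nbrs w, (x w b * pe V w b - ψ w b * pe V w b)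
            ≤ ∑ b ∈ nbrs w, a w ^ 2 * pe V w b := by
              apply sum_le_sum
              intro b hb
              have hp := pe_nonneg hV hwV hwW (mem_nbrs.1 hb)
              rw [← sub_mul]
              apply mul_le_mul_of_nonneg_right _ hp
              have h3 := (abs_le.1 (Real.abs_exp_sub_one_sub_id_le (hψ1 w b))).2
              have h4 : ψ w b ^ 2 ≤ a w ^ 2 := by
                rw [← sq_abs]
                exact pow_le_pow_left₀ (abs_nonneg _) (ha w b) 2
              simp only [hx]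
              linarith
          _ = a w ^ 2 := by rw [← mul_sum, sum_pe hV hwV hwW, mul_one]
      · apply le_of_eq
        apply sum_eq_zero
        intro b _
        rw [hx0 w b h, hsupp w b h]
        ring
    calc _ ≤ ∑ w ∈ V.filter White, (if w ∈ S then a w ^ 2 else 0) := sum_le_sum h2
      _ ≤ ∑ w ∈ S, a w ^ 2 := by
        rw [← sum_filter]
        apply sum_le_sum_of_subset_of_nonneg
        · intro w hw
          exact (mem_filter.1 hw).2
        · intro w _ _
          positivity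
  -- the Hilbert-Schmidt norm
  have hHS : 1 / 2 * ∑ i, ∑ j, A' i j ^ 2 ≤
      ∑ w ∈ S, a w ^ 2 * (8 * ∑ b ∈ nbrs w, ∑ w' ∈ S, Kinv V b w' ^ 2) := by
    have h1 : ∀ i j : {v // v ∈ V.filter White}, A' i j ^ 2 ≤
        if (i : Pt) ∈ S then (if (j : Pt) ∈ S then
          16 * a i ^ 2 * ∑ b ∈ nbrs (i : Pt), Kinv V b j ^ 2 else 0) else 0 := by
      intro i j
      simp only [hA', Matrix.of_apply]
      by_cases hi : (i : Pt) ∈ S
      · rw [if_pos hi]
        by_cases hj : (j : Pt) ∈ S
        · rw [if_pos hj, if_pos hj]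
          simp only [hA, Matrix.of_apply]
          have h2 : (∑ b ∈ nbrs (i : Pt), x i b * K i b * Kinv V b j) ^ 2 ≤
              4 * ∑ b ∈ nbrs (i : Pt), (x i b * K i b * Kinv V b j) ^ 2 := by
            refine sq_sum_le_card_mul_sum_sq.trans ?_
            apply mul_le_mul_of_nonneg_right _ (sum_nonneg (fun _ _ => sq_nonneg _))
            exact_mod_cast card_le_four
          refine h2.trans ?_
          have h3 : ∀ b ∈ nbrs (i : Pt), (x i b * K i b * Kinv V b j) ^ 2 ≤
              4 * a i ^ 2 * Kinv V b j ^ 2 := by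
            intro b _
            have h4 : (x i b) ^ 2 ≤ (2 * a i) ^ 2 := by
              rw [← sq_abs (x i b)]
              exact pow_le_pow_left₀ (abs_nonneg _) (hxa i b) 2
            have h5 : (K i b) ^ 2 ≤ 1 := by
              rw [← sq_abs]
              have := abs_K_le (i : Pt) b
              exact pow_le_one₀ (abs_nonneg _) this
            calc (x i b * K i b * Kinv V b j) ^ 2 = (x i b) ^ 2 * (K i b) ^ 2 * Kinv V b j ^ 2 := by
                  ring
              _ ≤ (2 * a i) ^ 2 * 1 * Kinv V b j ^ 2 := by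
                  apply mul_le_mul_of_nonneg_right _ (sq_nonneg _)
                  exact mul_le_mul h4 h5 (sq_nonneg _) (sq_nonneg _)
              _ = 4 * a i ^ 2 * Kinv V b j ^ 2 := by ring
          calc 4 * ∑ b ∈ nbrs (i : Pt), (x i b * K i b * Kinv V b j) ^ 2
              ≤ 4 * ∑ b ∈ nbrs (i : Pt), 4 * a i ^ 2 * Kinv V b j ^ 2 := by
                apply mul_le_mul_of_nonneg_left (sum_le_sum h3) (by norm_num)
            _ = 16 * a i ^ 2 * ∑ b ∈ nbrs (i : Pt), Kinv V b j ^ 2 := by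
                rw [← mul_sum]; ring
        · rw [if_neg hj, if_neg hj]
          norm_num
      · rw [if_neg hi]
        by_cases hj : (j : Pt) ∈ S
        · rw [if_pos hj, hArow i hi]
          norm_num
        · rw [if_neg hj]
          norm_num
    have h2 : ∑ i, ∑ j, A' i j ^ 2 ≤
        ∑ w ∈ S, 16 * a w ^ 2 * ∑ w' ∈ S, ∑ b ∈ nbrs w, Kinv V b w' ^ 2 := by
      calc ∑ i, ∑ j, A' i j ^ 2
          ≤ ∑ i : {v // v ∈ V.filter White}, (if (i : Pt) ∈ S then
              16 * a i ^ 2 * ∑ w' ∈ S, ∑ b ∈ nbrs (i : Pt), Kinv V b w' ^ 2 else 0) := by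
            apply sum_le_sum
            intro i _
            refine (sum_le_sum (fun j _ => h1 i j)).trans ?_
            by_cases hi : (i : Pt) ∈ S
            · simp only [hi, if_true]
              have h5 := sum_WV_le (V := V) (S := S)
                (fun w' => 16 * a i ^ 2 * ∑ b ∈ nbrs (i : Pt), Kinv V b w' ^ 2)
                (fun w' => by positivity)
              refine h5.trans (le_of_eq ?_)
              rw [mul_sum]
            · simp only [hi, if_false, sum_const_zero]
              exact le_refl _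
        _ ≤ ∑ w ∈ S, 16 * a w ^ 2 * ∑ w' ∈ S, ∑ b ∈ nbrs w, Kinv V b w' ^ 2 :=
            sum_WV_le (V := V) (S := S)
              (fun w => 16 * a w ^ 2 * ∑ w' ∈ S, ∑ b ∈ nbrs w, Kinv V b w' ^ 2)
              (fun w => by positivity)
    calc 1 / 2 * ∑ i, ∑ j, A' i j ^ 2
        ≤ 1 / 2 * ∑ w ∈ S, 16 * a w ^ 2 * ∑ w' ∈ S, ∑ b ∈ nbrs w, Kinv V b w' ^ 2 := by
          apply mul_le_mul_of_nonneg_left h2 (by norm_num)
      _ = ∑ w ∈ S, a w ^ 2 * (8 * ∑ b ∈ nbrs w, ∑ w' ∈ S, Kinv V b w' ^ 2) := by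
          rw [mul_sum]
          apply sum_congr rfl
          intro w _
          rw [sum_comm]
          ring
  have hsplit : Ex1 V (fun m => Real.exp (LS V ψ m - Ex1 V (LS V ψ))) =
      Real.exp (- Ex1 V (LS V ψ)) * Ex1 V (fun m => Real.exp (LS V ψ m)) := by
    rw [← Ex1_mul]
    congr 1
    funext m
    rw [← Real.exp_add]
    congr 1
    ring
  rw [hsplit]
  calc Real.exp (- Ex1 V (LS V ψ)) * Ex1 V (fun m => Real.exp (LS V ψ m))
      ≤ Real.exp (- Ex1 V (LS V ψ)) * Real.exp (A'.trace + 1 / 2 * ∑ i, ∑ j, A' i j ^ 2) :=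
        mul_le_mul_of_nonneg_left hbd (Real.exp_pos _).le
    _ = Real.exp ((A'.trace - Ex1 V (LS V ψ)) + 1 / 2 * ∑ i, ∑ j, A' i j ^ 2) := by
        rw [← Real.exp_add]
        congr 1
        ring
    _ ≤ Real.exp (∑ w ∈ S, a w ^ 2 * (1 + 8 * ∑ b ∈ nbrs w, ∑ w' ∈ S, Kinv V b w' ^ 2)) := by
        apply Real.exp_le_exp.2
        have : ∑ w ∈ S, a w ^ 2 * (1 + 8 * ∑ b ∈ nbrs w, ∑ w' ∈ S, Kinv V b w' ^ 2) =
            ∑ w ∈ S, a w ^ 2 +
              ∑ w ∈ S, a w ^ 2 * (8 * ∑ b ∈ nbrs w, ∑ w' ∈ S, Kinv V b w' ^ 2) := by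
          rw [← sum_add_distrib]
          apply sum_congr rfl
          intro w _
          ring
        rw [this]
        exact add_le_add htr hHS

end

end Vale.Agent.P155.C276
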