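import Vale.Agent.P155.C276.Kbd
import Vale.Agent.P155.E1.Incr

/-!
# P155, block C: height differences as linear statistics (flows of averaged L-shaped paths)
-/

namespace Vale.Agent.P155.C276

open Finset Vale.Agent.P155.F Vale.Agent.P155.Skel Vale.Agent.P155.E1

/-- parity sign -/
noncomputable def eps (p : Pt) : ℝ := if Even (p.1 + p.2) then 1 else -1

theorem abs_eps (p : Pt) : |eps p| = 1 := by
  unfold eps; split_ifs <;> simp

/-- the edge statistic of vertical weights `cv` and horizontal weights `ch` -/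
noncomputable def ps (cv ch : Pt → ℝ) (w b : Pt) : ℝ :=
  (if b = (w.1, w.2 + 1) then cv w * eps w else 0) +
  (if b = (w.1 + 1, w.2) then ch w * - eps w else 0) +
  ((if w = (b.1, b.2 + 1) then cv b * eps b else 0) +
  (if w = (b.1 + 1, b.2) then ch b * - eps b else 0))

/-- edge sums of one matching -/
noncomputable def E1m (V : Finset Pt) (cv ch : Pt → ℝ) (m : Pt → Pt) : ℝ :=
  ∑ p ∈ V, ((if m p = (p.1, p.2 + 1) then cv p * eps p else 0) +
    (if m p = (p.1 + 1, p.2) then ch p * - eps p else 0))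

theorem LS_ps {V : Finset Pt} {m : Pt → Pt} (hm : IsPM V m) (cv ch : Pt → ℝ) :
    LS V (ps cv ch) m = E1m V cv ch m := by
  classical
  unfold LS E1m ps
  rw [sum_add_distrib]
  have h1 : ∑ w ∈ V.filter White, ((if w = ((m w).1, (m w).2 + 1) then cv (m w) * eps (m w) else 0) +
      (if w = ((m w).1 + 1, (m w).2) then ch (m w) * - eps (m w) else 0)) =
      ∑ p ∈ V.filter Black, ((if m p = (p.1, p.2 + 1) then cv p * eps p else 0) +
        (if m p = (p.1 + 1, p.2) then ch p * - eps p else 0)) := by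
    refine sum_bij (fun w _ => m w) ?_ ?_ ?_ ?_
    · intro w hw
      obtain ⟨h1, h2⟩ := mem_filter.1 hw
      exact mem_filter.2 ⟨IsPM.mem hm h1, IsPM.black hm h1 h2⟩
    · intro a _ b _ hab
      exact IsPM.inj hm hab
    · intro b hb
      obtain ⟨h1, h2⟩ := mem_filter.1 hb
      exact ⟨m b, mem_filter.2 ⟨IsPM.mem hm h1, IsPM.white hm h1 h2⟩, hm.invol b⟩
    · intro w _
      simp only [hm.invol]
  rw [h1]
  have h2 : V.filter Black = V.filter (fun p => ¬ White p) := by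
    apply filter_congr
    intro p _
    exact black_iff_nw
  rw [h2]
  rw [← sum_filter_add_sum_filter_not V White
    (fun p => (if m p = (p.1, p.2 + 1) then cv p * eps p else 0) +
      (if m p = (p.1 + 1, p.2) then ch p * - eps p else 0))]

/-- pairing of weights with the height increments -/
noncomputable def EV (V : Finset Pt) (cv ch : Pt → ℝ) (ω : Conf) : ℝ :=
  ∑ p ∈ V, (cv p * (dh ω p.1 p.2 : ℝ) + ch p * (dv ω p.1 p.2 : ℝ))

theorem EV_eq {V : Finset Pt} {ω : Conf} (hω : ω ∈ DD V) (cv ch : Pt → ℝ) :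
    EV V cv ch ω = LS V (ps cv ch) ω.1 - LS V (ps cv ch) ω.2 := by
  classical
  have h1 := mem_PM.1 (Finset.mem_product.1 hω).1
  have h2 := mem_PM.1 (Finset.mem_product.1 hω).2
  rw [LS_ps h1, LS_ps h2]
  unfold EV E1m
  rw [← sum_sub_distrib]
  apply sum_congr rfl
  intro p _
  unfold dh dv eps
  obtain ⟨x, y⟩ := p
  simp only
  push_cast
  by_cases he : Even (x + y) <;> by_cases a : ω.1 (x, y) = (x, y + 1) <;>
    by_cases b : ω.2 (x, y) = (x, y + 1) <;> by_cases c : ω.1 (x, y) = (x + 1, y) <;>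
    by_cases d : ω.2 (x, y) = (x + 1, y) <;> simp [he, a, b, c, d] <;> ring

theorem dh_off {V : Finset Pt} {ω : Conf} (hω : ω ∈ DD V) {j y : ℤ} (h : (j, y) ∉ V) :
    dh ω j y = 0 := by
  have h1 := mem_PM.1 (Finset.mem_product.1 hω).1
  have h2 := mem_PM.1 (Finset.mem_product.1 hω).2
  unfold dh
  rw [h1.off _ h, h2.off _ h]
  simp

theorem dv_off {V : Finset Pt} {ω : Conf} (hω : ω ∈ DD V) {j y : ℤ} (h : (j, y) ∉ V) :
    dv ω j y = 0 := by
  have h1 := mem_PM.1 (Finset.mem_product.1 hω).1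
  have h2 := mem_PM.1 (Finset.mem_product.1 hω).2
  unfold dv
  rw [h1.off _ h, h2.off _ h]
  simp

/-- weights of the horizontal part of the path from `z` to `z'` -/
noncomputable def pv (z z' p : Pt) : ℝ :=
  if p.2 = z.2 ∧ min z.1 z'.1 < p.1 ∧ p.1 ≤ max z.1 z'.1 then (if z'.1 ≤ z.1 then 1 else -1) else 0

/-- weights of the vertical part of the path from `z` to `z'` -/
noncomputable def ph (z z' p : Pt) : ℝ :=
  if p.1 = z'.1 ∧ min z.2 z'.2 < p.2 ∧ p.2 ≤ max z.2 z'.2 then (if z'.2 ≤ z.2 then 1 else -1) else 0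

theorem tele (F G : ℤ → ℝ) (h : ∀ x, F x - F (x - 1) = G x) (a : ℤ) (n : ℕ) :
    F (a + n) - F a = ∑ j ∈ Ioc a (a + n), G j := by
  induction n with
  | zero => simp
  | succ n ih =>
    have h1 : Ioc a (a + ((n + 1 : ℕ) : ℤ)) = insert (a + n + 1) (Ioc a (a + n)) := by
      ext x
      simp only [mem_insert, mem_Ioc]
      push_cast
      omega
    rw [h1, sum_insert (by simp), ← ih, ← h (a + n + 1)]
    push_cast
    have e1 : a + (n : ℤ) + 1 - 1 = a + n := by ring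
    have e2 : a + ((n : ℤ) + 1) = a + n + 1 := by ring
    rw [e1, e2]
    ring

theorem tele' (F G : ℤ → ℝ) (h : ∀ x, F x - F (x - 1) = G x) {a b : ℤ} (hab : a ≤ b) :
    F b - F a = ∑ j ∈ Ioc a b, G j := by
  obtain ⟨n, rfl⟩ : ∃ n : ℕ, b = a + n := ⟨(b - a).toNat, by omega⟩
  exact tele F G h a n

theorem sum_row {V : Finset Pt} {ω : Conf} (hω : ω ∈ DD V) (a b y : ℤ) :
    ∑ j ∈ Ioc a b, (dh ω j y : ℝ) =
      ∑ p ∈ V, (if p.2 = y ∧ a < p.1 ∧ p.1 ≤ b then (1 : ℝ) else 0) * (dh ω p.1 p.2 : ℝ) := by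
  classical
  have h1 : ∑ j ∈ Ioc a b, (dh ω j y : ℝ) = ∑ p ∈ (Ioc a b).image (fun j => (j, y)),
      (dh ω p.1 p.2 : ℝ) := by
    rw [sum_image]
    intro i _ j _ hij
    exact congrArg Prod.fst hij
  rw [h1]
  have h2 : ∀ p : Pt, p ∈ (Ioc a b).image (fun j => (j, y)) ↔ (p.2 = y ∧ a < p.1 ∧ p.1 ≤ b) := by
    intro p
    rw [mem_image]
    constructor
    · rintro ⟨j, hj, rfl⟩
      rw [mem_Ioc] at hj
      exact ⟨rfl, hj.1, hj.2⟩
    · rintro ⟨h3, h4, h5⟩
      exact ⟨p.1, mem_Ioc.2 ⟨h4, h5⟩, by rw [← h3]⟩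
  have h3 : ∑ p ∈ (Ioc a b).image (fun j => (j, y)), (dh ω p.1 p.2 : ℝ) =
      ∑ p ∈ ((Ioc a b).image (fun j => (j, y))) ∩ V, (dh ω p.1 p.2 : ℝ) := by
    symm
    apply sum_subset inter_subset_left
    intro p hp hp'
    have : (p.1, p.2) ∉ V := fun h => hp' (mem_inter.2 ⟨hp, h⟩)
    rw [dh_off hω this]
    simp
  rw [h3]
  simp_rw [ite_mul, one_mul, zero_mul]
  rw [← sum_filter]
  apply sum_congr _ (fun _ _ => rfl)
  ext p
  rw [mem_inter, mem_filter, h2]
  exact and_comm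

theorem sum_col {V : Finset Pt} {ω : Conf} (hω : ω ∈ DD V) (a b x : ℤ) :
    ∑ j ∈ Ioc a b, (dv ω x j : ℝ) =
      ∑ p ∈ V, (if p.1 = x ∧ a < p.2 ∧ p.2 ≤ b then (1 : ℝ) else 0) * (dv ω p.1 p.2 : ℝ) := by
  classical
  have h1 : ∑ j ∈ Ioc a b, (dv ω x j : ℝ) = ∑ p ∈ (Ioc a b).image (fun j => (x, j)),
      (dv ω p.1 p.2 : ℝ) := by
    rw [sum_image]
    intro i _ j _ hij
    exact congrArg Prod.snd hij
  rw [h1]
  have h2 : ∀ p : Pt, p ∈ (Ioc a b).image (fun j => (x, j)) ↔ (p.1 = x ∧ a < p.2 ∧ p.2 ≤ b) := by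
    intro p
    rw [mem_image]
    constructor
    · rintro ⟨j, hj, rfl⟩
      rw [mem_Ioc] at hj
      exact ⟨rfl, hj.1, hj.2⟩
    · rintro ⟨h3, h4, h5⟩
      exact ⟨p.2, mem_Ioc.2 ⟨h4, h5⟩, by rw [← h3]⟩
  have h3 : ∑ p ∈ (Ioc a b).image (fun j => (x, j)), (dv ω p.1 p.2 : ℝ) =
      ∑ p ∈ ((Ioc a b).image (fun j => (x, j))) ∩ V, (dv ω p.1 p.2 : ℝ) := by
    symm
    apply sum_subset inter_subset_left
    intro p hp hp'
    have : (p.1, p.2) ∉ V := fun h => hp' (mem_inter.2 ⟨hp, h⟩)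
    rw [dv_off hω this]
    simp
  rw [h3]
  simp_rw [ite_mul, one_mul, zero_mul]
  rw [← sum_filter]
  apply sum_congr _ (fun _ _ => rfl)
  ext p
  rw [mem_inter, mem_filter, h2]
  exact and_comm

/-- **Path formula.** -/
theorem path {V : Finset Pt} {ω : Conf} (hω : ω ∈ DD V) (z z' : Pt) :
    (h ω z : ℝ) - h ω z' = EV V (pv z z') (ph z z') ω := by
  have hh : ∀ y x : ℤ, (h ω (x, y) : ℝ) - h ω (x - 1, y) = dh ω x y := by
    intro y x
    rw [← h_horiz hω x y]
    push_cast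
    ring
  have hv : ∀ x y : ℤ, (h ω (x, y) : ℝ) - h ω (x, y - 1) = dv ω x y := by
    intro x y
    rw [← h_vert hω x y]
    push_cast
    ring
  unfold EV
  rw [sum_add_distrib]
  have e1 : ∑ p ∈ V, pv z z' p * (dh ω p.1 p.2 : ℝ) = (h ω (z.1, z.2) : ℝ) - h ω (z'.1, z.2) := by
    rcases le_total z'.1 z.1 with hle | hle
    · rw [tele' (fun x => (h ω (x, z.2) : ℝ)) (fun x => (dh ω x z.2 : ℝ)) (hh z.2) hle,
        sum_row hω]
      apply sum_congr rfl
      intro p _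
      unfold pv
      rw [min_eq_right hle, max_eq_left hle, if_pos hle]
    · rcases eq_or_lt_of_le hle with heq | hlt
      · rw [← heq, sub_self]
        apply sum_eq_zero
        intro p _
        unfold pv
        rw [if_neg, zero_mul]
        rintro ⟨_, h1, h2⟩
        omega
      · have h1 := tele' (fun x => (h ω (x, z.2) : ℝ)) (fun x => (dh ω x z.2 : ℝ)) (hh z.2) hle
        have h2 : (h ω (z.1, z.2) : ℝ) - h ω (z'.1, z.2) =
            - ∑ j ∈ Ioc z.1 z'.1, (dh ω j z.2 : ℝ) := by linarith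
        rw [h2, sum_row hω, ← sum_neg_distrib]
        apply sum_congr rfl
        intro p _
        unfold pv
        rw [min_eq_left hle, max_eq_right hle, if_neg (not_le.2 hlt)]
        split_ifs <;> ring
  have e2 : ∑ p ∈ V, ph z z' p * (dv ω p.1 p.2 : ℝ) =
      (h ω (z'.1, z.2) : ℝ) - h ω (z'.1, z'.2) := by
    rcases le_total z'.2 z.2 with hle | hle
    · rw [tele' (fun y => (h ω (z'.1, y) : ℝ)) (fun y => (dv ω z'.1 y : ℝ)) (hv z'.1) hle,
        sum_col hω]
      apply sum_congr rfl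
      intro p _
      unfold ph
      rw [min_eq_right hle, max_eq_left hle, if_pos hle]
    · rcases eq_or_lt_of_le hle with heq | hlt
      · rw [← heq, sub_self]
        apply sum_eq_zero
        intro p _
        unfold ph
        rw [if_neg, zero_mul]
        rintro ⟨_, h1, h2⟩
        omega
      · have h1 := tele' (fun y => (h ω (z'.1, y) : ℝ)) (fun y => (dv ω z'.1 y : ℝ)) (hv z'.1) hle
        have h2 : (h ω (z'.1, z.2) : ℝ) - h ω (z'.1, z'.2) =
            - ∑ j ∈ Ioc z.2 z'.2, (dv ω z'.1 j : ℝ) := by linarith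
        rw [h2, sum_col hω, ← sum_neg_distrib]
        apply sum_congr rfl
        intro p _
        unfold ph
        rw [min_eq_left hle, max_eq_right hle, if_neg (not_le.2 hlt)]
        split_ifs <;> ring
  rw [e1, e2]
  ring

/-- average over a finite set of faces -/
noncomputable def av (A : Finset Pt) (g : Pt → ℝ) : ℝ := (A.card : ℝ)⁻¹ * ∑ z ∈ A, g z

/-- averaged vertical weights -/
noncomputable def cV (A B : Finset Pt) (p : Pt) : ℝ :=
  (A.card : ℝ)⁻¹ * (B.card : ℝ)⁻¹ * ∑ z ∈ A, ∑ z' ∈ B, pv z z' p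

/-- averaged horizontal weights -/
noncomputable def cH (A B : Finset Pt) (p : Pt) : ℝ :=
  (A.card : ℝ)⁻¹ * (B.card : ℝ)⁻¹ * ∑ z ∈ A, ∑ z' ∈ B, ph z z' p

theorem link {V : Finset Pt} {ω : Conf} (hω : ω ∈ DD V) {A B : Finset Pt} (hA : A.Nonempty)
    (hB : B.Nonempty) :
    av A (fun z => (h ω z : ℝ)) - av B (fun z => (h ω z : ℝ)) = EV V (cV A B) (cH A B) ω := by
  have hA0 : (A.card : ℝ) ≠ 0 := by
    have := card_pos.2 hA
    positivity
  have hB0 : (B.card : ℝ) ≠ 0 := by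
    have := card_pos.2 hB
    positivity
  have h1 : EV V (cV A B) (cH A B) ω =
      (A.card : ℝ)⁻¹ * (B.card : ℝ)⁻¹ * ∑ z ∈ A, ∑ z' ∈ B, EV V (pv z z') (ph z z') ω := by
    unfold EV cV cH
    have e : ∀ p ∈ V, (A.card : ℝ)⁻¹ * (B.card : ℝ)⁻¹ * (∑ z ∈ A, ∑ z' ∈ B, pv z z' p) *
        (dh ω p.1 p.2 : ℝ) + (A.card : ℝ)⁻¹ * (B.card : ℝ)⁻¹ *
        (∑ z ∈ A, ∑ z' ∈ B, ph z z' p) * (dv ω p.1 p.2 : ℝ) =
        (A.card : ℝ)⁻¹ * (B.card : ℝ)⁻¹ * ∑ z ∈ A, ∑ z' ∈ B,
          (pv z z' p * (dh ω p.1 p.2 : ℝ) + ph z z' p * (dv ω p.1 p.2 : ℝ)) := by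
      intro p _
      simp_rw [sum_add_distrib, ← sum_mul]
      ring
    rw [sum_congr rfl e, ← mul_sum]
    congr 1
    rw [sum_comm]
    apply sum_congr rfl
    intro z _
    rw [sum_comm]
  rw [h1]
  simp_rw [← path hω]
  unfold av
  have h2 : ∑ z ∈ A, ∑ z' ∈ B, ((h ω z : ℝ) - h ω z') =
      (B.card : ℝ) * ∑ z ∈ A, (h ω z : ℝ) - (A.card : ℝ) * ∑ z' ∈ B, (h ω z' : ℝ) := by
    simp_rw [sum_sub_distrib, sum_const, nsmul_eq_mul]
    rw [← mul_sum]
  rw [h2]
  field_simp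

theorem abs_pv_le (z z' p : Pt) : |pv z z' p| ≤ if p.2 = z.2 then 1 else 0 := by
  unfold pv
  by_cases h : p.2 = z.2
  · rw [if_pos h]
    split_ifs <;> simp
  · rw [if_neg h, if_neg (fun hh => h hh.1)]
    simp

theorem abs_ph_le (z z' p : Pt) : |ph z z' p| ≤ if p.1 = z'.1 then 1 else 0 := by
  unfold ph
  by_cases h : p.1 = z'.1
  · rw [if_pos h]
    split_ifs <;> simp
  · rw [if_neg h, if_neg (fun hh => h hh.1)]
    simp

theorem card_row_le (c : Pt) (s : ℕ) (y : ℤ) :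
    ((box c s).filter (fun z => y = z.2)).card ≤ 2 * s + 1 := by
  have : ((box c s).filter (fun z => y = z.2)) ⊆
      (Finset.Icc (c.1 - s) (c.1 + s)).image (fun j => (j, y)) := by
    intro z hz
    obtain ⟨h1, h2⟩ := mem_filter.1 hz
    unfold box at h1
    rw [mem_product] at h1
    rw [mem_image]
    exact ⟨z.1, h1.1, by rw [h2]⟩
  refine (card_le_card this).trans (card_image_le.trans ?_)
  rw [Int.card_Icc]
  omega

theorem card_col_le (c : Pt) (s : ℕ) (x : ℤ) :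
    ((box c s).filter (fun z => x = z.1)).card ≤ 2 * s + 1 := by
  have : ((box c s).filter (fun z => x = z.1)) ⊆
      (Finset.Icc (c.2 - s) (c.2 + s)).image (fun j => (x, j)) := by
    intro z hz
    obtain ⟨h1, h2⟩ := mem_filter.1 hz
    unfold box at h1
    rw [mem_product] at h1
    rw [mem_image]
    exact ⟨z.2, h1.2, by rw [h2]⟩
  refine (card_le_card this).trans (card_image_le.trans ?_)
  rw [Int.card_Icc]
  omega

/-- weights of a link between two boxes -/
theorem abs_cV_le (c c' : Pt) (s s' : ℕ) (p : Pt) :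
    |cV (box c s) (box c' s') p| ≤ 1 / (2 * (s : ℝ) + 1) := by
  classical
  unfold cV
  have hA : ((box c s).card : ℝ) = (2 * (s : ℝ) + 1) ^ 2 := by rw [card_box']; push_cast; ring
  have hB : ((box c' s').card : ℝ) = (2 * (s' : ℝ) + 1) ^ 2 := by rw [card_box']; push_cast; ring
  have h1 : |∑ z ∈ box c s, ∑ z' ∈ box c' s', pv z z' p| ≤
      (2 * (s : ℝ) + 1) * (2 * (s' : ℝ) + 1) ^ 2 := by
    calc |∑ z ∈ box c s, ∑ z' ∈ box c' s', pv z z' p|
        ≤ ∑ z ∈ box c s, ∑ z' ∈ box c' s', |pv z z' p| :=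
          (abs_sum_le_sum_abs _ _).trans (sum_le_sum (fun z _ => abs_sum_le_sum_abs _ _))
      _ ≤ ∑ z ∈ box c s, ∑ z' ∈ box c' s', (if p.2 = z.2 then (1 : ℝ) else 0) :=
          sum_le_sum (fun z _ => sum_le_sum (fun z' _ => abs_pv_le z z' p))
      _ = (((box c s).filter (fun z => p.2 = z.2)).card : ℝ) * (box c' s').card := by
          simp_rw [sum_const, nsmul_eq_mul]
          rw [← mul_sum, ← sum_filter, sum_const, nsmul_eq_mul]
          ring
      _ ≤ (2 * (s : ℝ) + 1) * (2 * (s' : ℝ) + 1) ^ 2 := by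
          rw [hB]
          apply mul_le_mul_of_nonneg_right _ (by positivity)
          exact_mod_cast card_row_le c s p.2
  rw [abs_mul, abs_of_nonneg (by positivity), hA, hB]
  calc ((2 * (s : ℝ) + 1) ^ 2)⁻¹ * ((2 * (s' : ℝ) + 1) ^ 2)⁻¹ *
        |∑ z ∈ box c s, ∑ z' ∈ box c' s', pv z z' p|
      ≤ ((2 * (s : ℝ) + 1) ^ 2)⁻¹ * ((2 * (s' : ℝ) + 1) ^ 2)⁻¹ *
        ((2 * (s : ℝ) + 1) * (2 * (s' : ℝ) + 1) ^ 2) :=
        mul_le_mul_of_nonneg_left h1 (by positivity)
    _ = 1 / (2 * (s : ℝ) + 1) := by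
        field_simp

theorem abs_cH_le (c c' : Pt) (s s' : ℕ) (p : Pt) :
    |cH (box c s) (box c' s') p| ≤ 1 / (2 * (s' : ℝ) + 1) := by
  classical
  unfold cH
  have hA : ((box c s).card : ℝ) = (2 * (s : ℝ) + 1) ^ 2 := by rw [card_box']; push_cast; ring
  have hB : ((box c' s').card : ℝ) = (2 * (s' : ℝ) + 1) ^ 2 := by rw [card_box']; push_cast; ring
  have h1 : |∑ z ∈ box c s, ∑ z' ∈ box c' s', ph z z' p| ≤
      (2 * (s : ℝ) + 1) ^ 2 * (2 * (s' : ℝ) + 1) := by
    calc |∑ z ∈ box c s, ∑ z' ∈ box c' s', ph z z' p|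
        ≤ ∑ z ∈ box c s, ∑ z' ∈ box c' s', |ph z z' p| :=
          (abs_sum_le_sum_abs _ _).trans (sum_le_sum (fun z _ => abs_sum_le_sum_abs _ _))
      _ ≤ ∑ z ∈ box c s, ∑ z' ∈ box c' s', (if p.1 = z'.1 then (1 : ℝ) else 0) :=
          sum_le_sum (fun z _ => sum_le_sum (fun z' _ => abs_ph_le z z' p))
      _ = ((box c s).card : ℝ) * ((box c' s').filter (fun z => p.1 = z.1)).card := by
          rw [sum_const, nsmul_eq_mul, ← sum_filter, sum_const, nsmul_eq_mul, mul_one]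
      _ ≤ (2 * (s : ℝ) + 1) ^ 2 * (2 * (s' : ℝ) + 1) := by
          rw [hA]
          apply mul_le_mul_of_nonneg_left _ (by positivity)
          exact_mod_cast card_col_le c' s' p.1
  rw [abs_mul, abs_of_nonneg (by positivity), hA, hB]
  calc ((2 * (s : ℝ) + 1) ^ 2)⁻¹ * ((2 * (s' : ℝ) + 1) ^ 2)⁻¹ *
        |∑ z ∈ box c s, ∑ z' ∈ box c' s', ph z z' p|
      ≤ ((2 * (s : ℝ) + 1) ^ 2)⁻¹ * ((2 * (s' : ℝ) + 1) ^ 2)⁻¹ *
        ((2 * (s : ℝ) + 1) ^ 2 * (2 * (s' : ℝ) + 1)) :=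
        mul_le_mul_of_nonneg_left h1 (by positivity)
    _ = 1 / (2 * (s' : ℝ) + 1) := by
        field_simp

/-- the path stays in every box containing its end points -/
theorem pv_mem {c z z' p : Pt} {r : ℕ} (hz : z ∈ box c r) (hz' : z' ∈ box c r)
    (h : pv z z' p ≠ 0) : p ∈ box c r := by
  unfold pv at h
  have h1 : p.2 = z.2 ∧ min z.1 z'.1 < p.1 ∧ p.1 ≤ max z.1 z'.1 := by
    by_contra hc
    rw [if_neg hc] at h
    exact h rfl
  unfold box at *
  rw [mem_product, mem_Icc, mem_Icc] at *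
  omega

theorem ph_mem {c z z' p : Pt} {r : ℕ} (hz : z ∈ box c r) (hz' : z' ∈ box c r)
    (h : ph z z' p ≠ 0) : p ∈ box c r := by
  unfold ph at h
  have h1 : p.1 = z'.1 ∧ min z.2 z'.2 < p.2 ∧ p.2 ≤ max z.2 z'.2 := by
    by_contra hc
    rw [if_neg hc] at h
    exact h rfl
  unfold box at *
  rw [mem_product, mem_Icc, mem_Icc] at *
  omega

theorem cV_mem {A B : Finset Pt} {c : Pt} {r : ℕ} (hA : A ⊆ box c r) (hB : B ⊆ box c r) {p : Pt}
    (hp : p ∉ box c r) : cV A B p = 0 := by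
  unfold cV
  rw [sum_eq_zero, mul_zero]
  intro z hz
  apply sum_eq_zero
  intro z' hz'
  by_contra h
  exact hp (pv_mem (hA hz) (hB hz') h)

theorem cH_mem {A B : Finset Pt} {c : Pt} {r : ℕ} (hA : A ⊆ box c r) (hB : B ⊆ box c r) {p : Pt}
    (hp : p ∉ box c r) : cH A B p = 0 := by
  unfold cH
  rw [sum_eq_zero, mul_zero]
  intro z hz
  apply sum_eq_zero
  intro z' hz'
  by_contra h
  exact hp (ph_mem (hA hz) (hB hz') h)

/-- bound of the edge statistic by a bound of the weights -/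
theorem abs_ps_le (cv ch : Pt → ℝ) (α a : Pt → ℝ) (ha0 : ∀ w, 0 ≤ a w)
    (hcv : ∀ p, |cv p| ≤ α p) (hch : ∀ p, |ch p| ≤ α p) (h0 : ∀ p, α p ≤ a p)
    (h1 : ∀ p : Pt, α p ≤ a (p.1, p.2 + 1)) (h2 : ∀ p : Pt, α p ≤ a (p.1 + 1, p.2)) (w b : Pt) :
    |ps cv ch w b| ≤ a w := by
  unfold ps
  have hc : ∀ p, |cv p * eps p| ≤ α p := by
    intro p
    rw [abs_mul, abs_eps, mul_one]; exact hcv p
  have hd : ∀ p, |ch p * - eps p| ≤ α p := by
    intro p
    rw [abs_mul, abs_neg, abs_eps, mul_one]; exact hch p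
  by_cases e1 : b = (w.1, w.2 + 1)
  · have e2 : b ≠ (w.1 + 1, w.2) := by
      rw [e1]; intro h
      simp at h
    have e3 : w ≠ (b.1, b.2 + 1) := by
      rw [e1]; intro h
      have := congrArg Prod.snd h
      simp only at this
      omega
    have e4 : w ≠ (b.1 + 1, b.2) := by
      rw [e1]; intro h
      have := congrArg Prod.snd h
      simp only at this
      omega
    rw [if_pos e1, if_neg e2, if_neg e3, if_neg e4, add_zero, add_zero, add_zero]
    exact (hc w).trans (h0 w)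
  · rw [if_neg e1, zero_add]
    by_cases e2 : b = (w.1 + 1, w.2)
    · have e3 : w ≠ (b.1, b.2 + 1) := by
        rw [e2]; intro h
        have := congrArg Prod.fst h
        simp only at this
        omega
      have e4 : w ≠ (b.1 + 1, b.2) := by
        rw [e2]; intro h
        have := congrArg Prod.fst h
        simp only at this
        omega
      rw [if_pos e2, if_neg e3, if_neg e4, add_zero, add_zero]
      exact (hd w).trans (h0 w)
    · rw [if_neg e2, zero_add]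
      by_cases e3 : w = (b.1, b.2 + 1)
      · have e4 : w ≠ (b.1 + 1, b.2) := by
          rw [e3]; intro h
          simp at h
        rw [if_pos e3, if_neg e4, add_zero]
        refine (hc b).trans ?_
        rw [e3]; exact h1 b
      · rw [if_neg e3, zero_add]
        by_cases e4 : w = (b.1 + 1, b.2)
        · rw [if_pos e4]
          refine (hd b).trans ?_
          rw [e4]; exact h2 b
        · rw [if_neg e4, abs_zero]
          exact ha0 w

end Vale.Agent.P155.C276
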